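import Crest.Agent.X261.Reg.Loc
import Crest.Agent.X261.Hs.G
import Crest.Agent.X261.Hs.H
import Crest.Agent.R266.SCV
import Crest.Agent.X261.Plk.C
import Crest.Agent.X261.Jet.Fr
import Crest.Agent.R271.Montel_297
import Crest.Agent.R273.Berezin_505
import Crest.Agent.X261.Jet.TbI
import Crest.Agent.X261.Jet.TbH_Mg
import Crest.Agent.X261.Sk.Defs
import Crest.Agent.X261.Bog.Use
import Crest.Agent.R273.EqvA_914
import Crest.Agent.R271.Null_821
import Crest.Agent.X261.Fin.All_Mg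
import Crest.Agent.X261.Rel.Main_Mg
import Crest.Agent.X261.En.Inst

-- ▼ part X261/Reg/Lse
section

/-!
# Row 261, package REG (helper71), file `Lse`

The log-sum-exp gluing `G.lse p a`: monotonicity, smoothness, curvature, loss of curvature.
-/

set_option autoImplicit false
set_option linter.dupNamespace false
set_option linter.unusedSectionVars false

open Set Filter Topology Metric
open scoped ContDiff ComplexConjugate

noncomputable section

namespace Crest.Agent.X261.Reg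

open Crest.Agent.R275.Geo Crest.Agent.R275.Core144
open Crest.Agent.R273.Hess_333 Crest.Agent.R273.HessB_333
open Crest.Agent.R273.Kah_333 (hsf)
open Crest.Agent.R273.FIa0_597 (gr)
open Crest.Agent.R273.GreenM_5 (ci mem_ci)
open Crest.Agent.X277.AN

variable {n : ℕ} {M : Type} [TopologicalSpace M] {A : Atl n M}

/-- the positivity `(U, ∂U, ∂∂̄U + q) ≥ 0` -/
structure LE (q : (Fin n → ℂ) → ℝ) (U : Cn n → ℝ) (z : Cn n) : Prop where
  sm : ContDiffAt ℝ ∞ U z
  pos : ∀ (t : ℂ) (ξ : Fin n → ℂ), 0 ≤ U z * ‖t‖ ^ 2 + 2 * (conj t * pr (gr U z) ξ).re +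
    (qf (hess U z) ξ + q ξ)

namespace LE

variable {q q' : (Fin n → ℂ) → ℝ} {U V : Cn n → ℝ} {z : Cn n}

theorem add (h : LE q U z) (h' : LE q' V z) : LE (fun ξ => q ξ + q' ξ) (fun w => U w + V w) z := by
  refine ⟨h.sm.add h'.sm, fun t ξ => ?_⟩
  have h1 := h.pos t ξ
  have h2 := h'.pos t ξ
  rw [gr_add (h.sm.differentiableAt (by simp)) (h'.sm.differentiableAt (by simp)),
    hess_add h.sm h'.sm, pr_add, mul_add (conj t), Complex.add_re, qf_eq_fm, fm_add,
    Complex.add_re, ← qf_eq_fm, ← qf_eq_fm]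
  linarith

theorem sum {ι : Type*} (s : Finset ι) {Q : ι → (Fin n → ℂ) → ℝ} {F : ι → Cn n → ℝ}
    (h : ∀ k ∈ s, LE (Q k) (F k) z) :
    LE (fun ξ => ∑ k ∈ s, Q k ξ) (fun w => ∑ k ∈ s, F k w) z := by
  classical
  induction s using Finset.induction_on with
  | empty =>
    refine ⟨by simpa using contDiffAt_const, fun t ξ => ?_⟩
    simp only [Finset.sum_empty, gr_const, hess_const', pr_zero, qf_eq_fm, fm_zero]
    simp
  | insert k s hk ih =>
    simp only [Finset.sum_insert hk]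
    exact (h k (by simp)).add (ih fun l hl => h l (by simp [hl]))

theorem mul_lp {Θ : Matrix (Fin n) (Fin n) ℂ} (h : LE q U z) (h0 : 0 ≤ U z) (h' : LP Θ V z) :
    LE (fun ξ => V z * q ξ + U z * V z * qf Θ ξ) (fun w => U w * V w) z := by
  refine ⟨h.sm.mul h'.sm, fun t ξ => ?_⟩
  have h1 := LP.prod_ineq (fun t => h.pos t ξ) (fun t => h'.pos t ξ) h0 h'.nonneg t
  rw [gr_mul (h.sm.differentiableAt (by simp)) h'.diff, hess_mul h.sm h'.sm, pr_add, pr_smul,
    pr_smul, qf_eq_fm, fm_add, fm_add, fm_add, fm_vecMulVec, fm_vecMulVec, Complex.add_re,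
    Complex.add_re, fm_smul_re, fm_smul_re]
  simp only [qf_eq_fm] at h1 ⊢
  linarith

theorem lp {Θ : Matrix (Fin n) (Fin n) ℂ} (h : LE q U z) (hq : ∀ ξ, q ξ ≤ U z * qf Θ ξ) :
    LP Θ U z := ⟨h.sm, fun t ξ => by
  have h1 := h.pos t ξ
  have h2 := hq ξ
  simp only [qf_eq_fm] at h1 h2
  linarith⟩

end LE

theorem exists_cpt_nhds (A : Atl n M) (x : M) : ∃ K ∈ 𝓝 x, IsCompact K := by
  obtain ⟨i, hi⟩ := A.cover x
  obtain ⟨r, hr, hB⟩ := nhds_basis_closedBall.mem_iff.1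
    ((A.e i).open_target.mem_nhds ((A.e i).map_source hi))
  refine ⟨(A.e i).symm '' closedBall (A.e i x) r, ?_,
    (isCompact_closedBall _ _).image_of_continuousOn ((A.e i).continuousOn_symm.mono hB)⟩
  have h := (A.e i).symm.image_mem_nhds ((A.e i).map_source hi) (closedBall_mem_nhds _ hr)
  rwa [(A.e i).left_inv hi] at h

namespace BG

variable {g : Mat A} (G : BG A g)

theorem fin_J (x : M) : {j | x ∈ tsupport (G.χ j)}.Finite :=
  (G.lf {x} isCompact_singleton).subset fun j hj => ⟨x, rfl, G.sub j hj⟩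

/-- the indices of the cut-off functions that live at `x` -/
def J (x : M) : Finset A.ι := (G.fin_J x).toFinset

theorem mem_J {x : M} {j : A.ι} : j ∈ G.J x ↔ x ∈ tsupport (G.χ j) := (G.fin_J x).mem_toFinset

theorem card_J (x : M) : (G.J x).card ≤ G.m := G.card x _ fun _ hj => G.mem_J.1 hj

theorem mem_of_one {x : M} {j : A.ι} (h : G.χ j x = 1) : x ∈ tsupport (G.χ j) :=
  subset_tsupport _ (by rw [Function.mem_support, h]; exact one_ne_zero)


theorem B0 : 0 < G.B := zero_lt_one.trans_le G.B1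

theorem ev_J (x : M) : ∀ᶠ y in 𝓝 x, ∀ j, y ∈ tsupport (G.χ j) → j ∈ G.J x := by
  obtain ⟨K, hK, hc⟩ := exists_cpt_nhds A x
  have h1 : ∀ᶠ y in 𝓝 x, ∀ j ∈ {j | (K ∩ (A.e j).source).Nonempty},
      y ∈ tsupport (G.χ j) → j ∈ G.J x := by
    refine (eventually_all_finite (G.lf K hc)).2 fun j _ => ?_
    by_cases h : x ∈ tsupport (G.χ j)
    · exact Eventually.of_forall fun _ _ => G.mem_J.2 h
    · filter_upwards [(isClosed_tsupport (G.χ j)).isOpen_compl.mem_nhds h] with y hy hy'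
      exact absurd hy' hy
  filter_upwards [hK, h1] with y h2 h3 j hj
  exact h3 j ⟨y, h2, G.sub j hj⟩ hj

variable {p : ℝ} {a a' : A.ι → M → ℝ} {x y : M}

theorem sS_eq {s : Finset A.ι} (h : ∀ j, y ∈ tsupport (G.χ j) → j ∈ s) :
    G.sS p a y = ∑ j ∈ s, G.χ j y ^ 2 * Real.exp (p * a j y) := by
  refine finsum_eq_sum_of_support_subset _ fun j hj => h j (subset_tsupport _ fun h0 => hj ?_)
  simp [h0]

theorem sT_eq {s : Finset A.ι} (h : ∀ j, y ∈ tsupport (G.χ j) → j ∈ s) :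
    G.sT p a y = ∑ j ∈ s, (tsupport (G.χ j)).indicator (fun y => Real.exp (p * a j y)) y := by
  refine finsum_eq_sum_of_support_subset _ fun j hj => h j ?_
  by_contra h0
  exact hj (indicator_of_notMem h0 _)

theorem sS_self : G.sS p a x = ∑ j ∈ G.J x, G.χ j x ^ 2 * Real.exp (p * a j x) :=
  G.sS_eq fun _ hj => G.mem_J.2 hj

theorem sT_self : G.sT p a x = ∑ j ∈ G.J x, Real.exp (p * a j x) := by
  rw [G.sT_eq fun _ hj => G.mem_J.2 hj]
  exact Finset.sum_congr rfl fun j hj => indicator_of_mem (G.mem_J.1 hj) _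

theorem sS_ev (x : M) :
    G.sS p a =ᶠ[𝓝 x] fun y => ∑ j ∈ G.J x, G.χ j y ^ 2 * Real.exp (p * a j y) :=
  (G.ev_J x).mono fun _ hy => G.sS_eq hy

theorem exp_le_sS {j : A.ι} (h : G.χ j x = 1) : Real.exp (p * a j x) ≤ G.sS p a x := by
  rw [G.sS_self]
  have := Finset.single_le_sum (f := fun j => G.χ j x ^ 2 * Real.exp (p * a j x))
    (fun _ _ => by positivity) (G.mem_J.2 (G.mem_of_one h))
  simpa [h] using this

theorem sS_pos : 0 < G.sS p a x := by
  obtain ⟨j, hj⟩ := G.one x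
  exact (Real.exp_pos _).trans_le (G.exp_le_sS hj)


theorem lse_le (hp : 0 < p) {c : ℝ} (h : ∀ j, x ∈ tsupport (G.χ j) → a' j x ≤ a j x + c) :
    G.lse p a' x ≤ G.lse p a x + c := by
  have h1 : G.sS p a' x ≤ G.sS p a x * Real.exp (p * c) := by
    rw [G.sS_self, G.sS_self, Finset.sum_mul]
    refine Finset.sum_le_sum fun j hj => ?_
    rw [mul_assoc, ← Real.exp_add]
    refine mul_le_mul_of_nonneg_left (Real.exp_le_exp.2 ?_) (sq_nonneg _)
    nlinarith [h j (G.mem_J.1 hj)]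
  have h2 := Real.log_le_log G.sS_pos h1
  rw [Real.log_mul G.sS_pos.ne' (Real.exp_pos _).ne', Real.log_exp] at h2
  have h3 := mul_le_mul_of_nonneg_left h2 (inv_pos.2 hp).le
  rw [mul_add, ← mul_assoc, inv_mul_cancel₀ hp.ne', one_mul] at h3
  exact h3



theorem lse_le_cor (hp : 0 < p) {c : ℝ} (h : ∀ j, x ∈ tsupport (G.χ j) → a j x ≤ c) :
    G.lse p a x ≤ c + G.cor p x := by
  have := G.lse_le (a := fun _ _ => 0) (c := c) hp fun j hj => by simpa using h j hj
  unfold cor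
  linarith

theorem cor_le_lse (hp : 0 < p) {c : ℝ} (h : ∀ j, x ∈ tsupport (G.χ j) → c ≤ a j x) :
    c + G.cor p x ≤ G.lse p a x := by
  have := G.lse_le (a' := fun _ _ => 0) (a := a) (c := -c) hp fun j hj => by
    linarith [h j hj]
  unfold cor
  linarith

theorem cor_nonneg (hp : 0 < p) (x : M) : 0 ≤ G.cor p x := by
  obtain ⟨j, hj⟩ := G.one x
  refine mul_nonneg (inv_pos.2 hp).le (Real.log_nonneg ?_)
  simpa using G.exp_le_sS (p := p) (a := fun _ _ => 0) hj

theorem cor_le (hp : 0 < p) (x : M) : G.cor p x ≤ Real.log (G.m * G.B) / p := by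
  rw [div_eq_inv_mul]
  refine mul_le_mul_of_nonneg_left (Real.log_le_log G.sS_pos ?_) (inv_pos.2 hp).le
  rw [G.sS_self]
  refine (Finset.sum_le_card_nsmul _ _ G.B fun j _ => by simpa using G.bd j x).trans ?_
  rw [nsmul_eq_mul]
  exact mul_le_mul_of_nonneg_right (by exact_mod_cast G.card_J x) G.B0.le

/-- the functions `a j` are smooth near the supports -/
def Loc (a : A.ι → M → ℝ) : Prop :=
  ∀ j, ∀ x ∈ tsupport (G.χ j), ∀ i, x ∈ (A.e i).source → SX A (a j) i x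


variable {G}

theorem Loc.sx_sS (h : G.Loc a) {i : A.ι} (hx : x ∈ (A.e i).source) : SX A (G.sS p a) i x := by
  refine SX.congr ?_ hx (G.sS_ev x)
  refine ContDiffAt.sum (s := G.J x) (f := fun j z => G.χ j ((A.e i).symm z) ^ 2 *
    Real.exp (p * a j ((A.e i).symm z))) fun j hj => ?_
  exact (ContDiffAt.pow (sx_of_sm (G.sm j) hx) 2).mul ((h j x (G.mem_J.1 hj) i hx).cmul p).exp

theorem Loc.sm_sS (h : G.Loc a) : A.Sm (G.sS p a) := sm_of_sx fun _ _ hx => h.sx_sS hx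

theorem Loc.sm_lse (h : G.Loc a) : A.Sm (G.lse p a) := sm_of_sx fun _ _ hx =>
  ((h.sx_sS hx).log hx G.sS_pos.ne').cmul p⁻¹


/-- the curvature of the gluing -/
theorem Loc.cur_lse (h : G.Loc a) (hp : 0 < p) {i : A.ι} (hx : x ∈ (A.e i).source)
    {Θ : Matrix (Fin n) (Fin n) ℂ}
    (hΘ : ∀ j, x ∈ tsupport (G.χ j) → ∀ ξ, 0 ≤ qf Θ ξ + qf (hsf A (a j) i x) ξ) (ξ : Fin n → ℂ) :
    0 ≤ qf Θ ξ + qf (hsf A (G.lse p a) i x) ξ + G.los p a x * qf (g i x) ξ := by
  have li := (A.e i).left_inv hx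
  have h1 : ∀ j ∈ G.J x, LE (fun ξ => Real.exp (p * a j x) * (G.B * qf (g i x) ξ) +
      G.χ j x ^ 2 * Real.exp (p * a j x) * qf ((p : ℂ) • Θ) ξ)
      (fun z => G.χ j ((A.e i).symm z) ^ 2 * Real.exp (p * a j ((A.e i).symm z))) (A.e i x) := by
    intro j hj
    have hj' := G.mem_J.1 hj
    have e1 : LE (fun ξ => G.B * qf (g i x) ξ) (fun z => G.χ j ((A.e i).symm z) ^ 2) (A.e i x) :=
      ⟨ContDiffAt.pow (sx_of_sm (G.sm j) hx) 2, fun t ξ => by
        have := G.lev j i x hx t ξ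
        rw [li]
        exact this⟩
    have e2 : LX A ((p : ℂ) • Θ) (fun y => Real.exp (p * a j y)) i x :=
      LX.exp ((h j x hj' i hx).cmul p) fun ξ => by
        rw [qx_cmul p (h j x hj' i hx), qf_eq_fm, fm_smul_re, ← qf_eq_fm, ← mul_add]
        exact mul_nonneg hp.le (hΘ j hj' ξ)
    have e3 := e1.mul_lp (sq_nonneg _) e2
    simpa only [li] using e3
  have h2 := (LE.sum (G.J x) h1).lp
    (Θ := (p : ℂ) • Θ + ((G.B * (G.sT p a x / G.sS p a x) : ℝ) : ℂ) • g i x) fun ξ => by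
      simp only [li]
      rw [← G.sS_self, Finset.sum_add_distrib, ← Finset.sum_mul, ← Finset.sum_mul, ← G.sS_self,
        ← G.sT_self, qf_eq_fm (_ + _), fm_add, Complex.add_re, fm_smul_re _ (g i x), ← qf_eq_fm,
        ← qf_eq_fm]
      have := (G.sS_pos (p := p) (a := a) (x := x)).ne'
      refine le_of_eq ?_
      field_simp
      ring
  have h3 : LX A _ (G.sS p a) i x := LX.congr (U := fun y => ∑ j ∈ G.J x,
    G.χ j y ^ 2 * Real.exp (p * a j y)) h2 hx (G.sS_ev x)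
  have h4 := h3.log hx G.sS_pos ξ
  rw [qf_eq_fm, fm_add, Complex.add_re, fm_smul_re, fm_smul_re, ← qf_eq_fm, ← qf_eq_fm] at h4
  have h5 : qf (hsf A (G.lse p a) i x) ξ =
      p⁻¹ * qf (hsf A (fun y => Real.log (G.sS p a y)) i x) ξ :=
    qx_cmul p⁻¹ ((h.sx_sS hx).log hx G.sS_pos.ne') ξ
  rw [h5]
  have h6 := mul_nonneg (inv_pos.2 hp).le h4
  refine h6.trans_eq ?_
  unfold los
  field_simp
  ring

variable (G)

/-- the unavoidable loss of curvature -/
def eps (p : ℝ) : ℝ := G.B * G.m / p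

theorem eps_nonneg (hp : 0 < p) : 0 ≤ G.eps p := div_nonneg (mul_nonneg G.B0.le G.m.cast_nonneg) hp.le

theorem los_le (hp : 0 < p) {c : ℝ}
    (h : ∀ i j, x ∈ tsupport (G.χ i) → x ∈ tsupport (G.χ j) → a j x ≤ a i x + c) :
    G.los p a x ≤ G.eps p * Real.exp (p * c) := by
  obtain ⟨i, hi⟩ := G.one x
  have h1 : G.sT p a x ≤ G.m * Real.exp (p * c) * G.sS p a x := by
    rw [G.sT_self]
    refine (Finset.sum_le_card_nsmul _ _ (Real.exp (p * c) * G.sS p a x) fun j hj => ?_).trans ?_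
    · refine le_trans ?_ (mul_le_mul_of_nonneg_left (G.exp_le_sS hi) (Real.exp_pos _).le)
      rw [← Real.exp_add, Real.exp_le_exp]
      nlinarith [h i j (G.mem_of_one hi) (G.mem_J.1 hj)]
    · rw [nsmul_eq_mul, mul_assoc]
      exact mul_le_mul_of_nonneg_right (by exact_mod_cast G.card_J x)
        (mul_pos (Real.exp_pos _) G.sS_pos).le
  have h2 := (div_le_iff₀ G.sS_pos).2 h1
  refine (mul_le_mul_of_nonneg_left h2 (div_pos G.B0 hp).le).trans_eq ?_
  unfold eps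
  ring

variable {G}

theorem Loc.usc_sT (h : G.Loc a) : UpperSemicontinuous (G.sT p a) := by
  intro x b hb
  have h1 : ContinuousAt (fun y => ∑ j ∈ G.J x, Real.exp (p * a j y)) x :=
    tendsto_finsetSum _ fun j hj => ((h j x (G.mem_J.1 hj) _ (mem_ci x)).cmul p).exp.contAt
      (mem_ci x)
  rw [G.sT_self] at hb
  filter_upwards [G.ev_J x, h1.eventually_lt_const hb] with y h2 h3
  rw [G.sT_eq h2]
  refine lt_of_le_of_lt (Finset.sum_le_sum fun j _ => ?_) h3
  exact indicator_le_self' (fun _ _ => (Real.exp_pos _).le) y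

theorem Loc.measurable_los [MeasurableSpace M] [OpensMeasurableSpace M] (h : G.Loc a) :
    Measurable (G.los p a) :=
  (h.usc_sT.measurable.div (cont_of_sm h.sm_sS).measurable).const_mul _

end BG

end Crest.Agent.X261.Reg
end
end

-- ▼ part X261/Reg/Main
section

/-!
# Row 261, package REG (helper71), file `Main`

Regularization of `ω`-psh functions on manifolds of bounded geometry (Demailly 1992, gluing of
local regularizations): `G.rg H p μ u`, the loss of curvature `G.eps p + G.lam H p μ u`.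
-/

set_option autoImplicit false
set_option linter.dupNamespace false
set_option linter.unusedSectionVars false

open Set Filter Topology Metric
open scoped ContDiff ComplexConjugate

noncomputable section

namespace Crest.Agent.X261.Reg

open Crest.Agent.R275.Geo Crest.Agent.R275.Core144
open Crest.Agent.R273.Hess_333 Crest.Agent.R273.HessB_333
open Crest.Agent.R273.Kah_333 (hsf)
open Crest.Agent.R273.GreenM_5 (ci mem_ci)
open Crest.Agent.R281.Kp_487 (KP cur Tm_hol uj_contDiffAt hess_wt_uj wt_contDiffAt)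
open Crest.Agent.X277.AN
open Crest.Agent.X261.Psh Crest.Agent.X261.Psh.Kis

variable {n : ℕ} {M : Type} [TopologicalSpace M] {A : Atl n M}

section psh

variable {H : KP A} {u u' : M → EReal}

theorem wt_e (H : KP A) {j : A.ι} {x : M} (hx : x ∈ (A.e j).source) :
    H.wt j (A.e j x) = H.u j x := by
  simp only [KP.wt, (A.e j).left_inv hx]

theorem uj_e (H : KP A) (u : M → EReal) {j : A.ι} {x : M} (hx : x ∈ (A.e j).source) :
    uj H u j (A.e j x) = u x + (H.wt j (A.e j x) : ℝ) := by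
  simp only [uj, (A.e j).left_inv hx]

theorem add_coe_ne_bot {a : EReal} {c : ℝ} : a + c ≠ ⊥ ↔ a ≠ ⊥ := by
  simp [EReal.add_eq_bot_iff]

theorem dn_uj (H : KP A) (hd : Dn univ u) (j : A.ι) : Dn (A.e j).target (uj H u j) := by
  intro z hz
  have h1 := hd ((A.e j).symm z) (mem_univ _)
  rw [← (A.e j).symm.map_nhds_eq hz, frequently_map] at h1
  exact h1.mono fun w hw => add_coe_ne_bot.2 hw

theorem freq_of_uj {j : A.ι} {x : M} (hx : x ∈ (A.e j).source)
    (h : ∃ᶠ z in 𝓝 (A.e j x), uj H u j z ≠ ⊥) : ∃ᶠ y in 𝓝 x, u y ≠ ⊥ := by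
  have h1 := (A.e j).symm.map_nhds_eq ((A.e j).map_source hx)
  rw [(A.e j).left_inv hx] at h1
  rw [← h1, frequently_map]
  exact h.mono fun w hw => add_coe_ne_bot.1 hw

theorem PshW.lt_top (h : PshW H u) (x : M) : u x < ⊤ := by
  have h1 := (h (ci A x)).lt_top _ ((A.e _).map_source (mem_ci x))
  rw [uj_e H u (mem_ci x)] at h1
  refine lt_top_iff_ne_top.2 fun h2 => h1.ne ?_
  rw [h2, EReal.top_add_coe]

theorem PshW.usc (h : PshW H u) : UpperSemicontinuous u := by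
  intro x b hb
  obtain ⟨c, h1, h2⟩ := EReal.lt_iff_exists_real_btwn.1 hb
  have hx := mem_ci (A := A) x
  set j := ci A x
  have hz := (A.e j).map_source hx
  have h3 : uj H u j (A.e j x) < ((c + H.wt j (A.e j x) : ℝ) : EReal) := by
    rw [uj_e H u hx, add_coe_lt_iff]
    simpa using h1
  have h4 := ev_lt (K := univ) (g := fun z => c + H.wt j z)
    (((h j).uscAt (A.e j).open_target hz).upperSemicontinuousWithinAt _)
    (continuousAt_const.add (wt_contDiffAt H j hz).continuousAt).continuousWithinAt h3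
  rw [nhdsWithin_univ] at h4
  filter_upwards [((A.e j).continuousAt hx).eventually h4, (A.e j).open_source.mem_nhds hx]
    with y h5 hy
  rw [uj_e H u hy, add_coe_lt_iff] at h5
  refine lt_trans ?_ h2
  simpa using h5

theorem PshW.measurable [MeasurableSpace M] [OpensMeasurableSpace M] (h : PshW H u) :
    Measurable u := h.usc.measurable

end psh

namespace BG

variable {g : Mat A} (G : BG A g)

theorem L0 : 0 < G.Λ := zero_lt_one.trans_le G.Λ1

theorem rad_pos (μ : ℕ) : 0 < G.rad μ := by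
  have := G.r0
  have := G.L0
  unfold rad
  positivity

theorem rad_succ (μ : ℕ) : 3 * G.rad (μ + 1) = G.rad μ := by
  unfold rad
  rw [pow_succ]
  field_simp

theorem rad_le (μ : ℕ) : 3 * G.Λ * G.rad μ ≤ G.r / 2 := by
  have h0 := G.r0
  have h1 := G.L0
  have h2 : G.rad μ ≤ G.r / (6 * G.Λ) :=
    div_le_self (by positivity) (one_le_pow₀ (by norm_num))
  refine (mul_le_mul_of_nonneg_left h2 (by positivity)).trans_eq ?_
  field_simp
  ring

theorem rad_le' (μ : ℕ) : 3 * G.rad μ ≤ G.r / 2 := by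
  nlinarith [G.rad_le μ, G.rad_pos μ, G.Λ1]

theorem rad_le_r (μ : ℕ) : 3 * G.rad μ ≤ G.r := by
  linarith [G.rad_le' μ, G.r0]

theorem tendsto_rad : Tendsto (fun μ => 3 * G.rad μ) atTop (𝓝 0) := by
  have h := (tendsto_pow_atTop_atTop_of_one_lt (show (1 : ℝ) < 3 by norm_num)).const_div_atTop
    (G.r / (6 * G.Λ))
  simpa [rad] using h.const_mul 3

theorem cball {j : A.ι} {x : M} (hx : x ∈ tsupport (G.χ j)) (μ : ℕ) :
    closedBall (A.e j x) (3 * G.rad μ) ⊆ (A.e j).target :=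
  (closedBall_subset_closedBall (G.rad_le_r μ)).trans (G.ball j x hx)

/-- the local regularizations -/
def aj (H : KP A) (μ : ℕ) (u : M → EReal) (j : A.ι) (x : M) : ℝ :=
  smo n (G.rad μ) (uj H u j) (A.e j x) - H.wt j (A.e j x)

/-- the regularization of `u` -/
def rg (H : KP A) (p : ℝ) (μ : ℕ) (u : M → EReal) : M → ℝ := G.lse p (G.aj H μ u)

/-- the part of the loss of curvature that tends to zero with `μ` -/
def lam (H : KP A) (p : ℝ) (μ : ℕ) (u : M → EReal) (x : M) : ℝ :=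
  max (G.los p (G.aj H μ u) x - G.eps p) 0

/-- the bound for the oscillation of the local regularizations -/
def osc (C L : ℝ) : ℝ := (2 * C + 2 * L * G.r) / Real.log 2 * Real.log (3 * G.Λ) + L * G.r

variable {G} {H : KP A} {u u' : M → EReal} {p : ℝ} {μ : ℕ} {x : M} {C L : ℝ}

theorem Unif.dn (hU : G.Unif u C) (h : PshW H u) : Dn univ u := by
  intro x _
  obtain ⟨j, hj⟩ := G.one x
  have hx := G.mem_of_one hj
  obtain ⟨z, hz, h1⟩ := hU.2 j x hx
  have h2 := ((h j).mono (ball_subset_closedBall.trans (G.ball j x hx))).dn_of_conn isOpen_ball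
    (convex_ball _ _).isPreconnected ⟨z, closedBall_subset_ball (by linarith [G.r0]) hz,
      add_coe_ne_bot.2 ((EReal.bot_lt_coe _).trans_le h1).ne'⟩
  exact freq_of_uj (G.sub j hx) (h2 _ (mem_ball_self G.r0))

variable (G)

theorem smo_spec (h : PshW H u) (hd : Dn univ u) (μ : ℕ) {j : A.ι} (hx : x ∈ tsupport (G.χ j)) :
    ContDiffAt ℝ ∞ (smo n (G.rad μ) (uj H u j)) (A.e j x) ∧
      (∀ ξ, 0 ≤ qf (hess (smo n (G.rad μ) (uj H u j)) (A.e j x)) ξ) ∧
      bsup (uj H u j) (A.e j x) (G.rad μ) ≤ smo n (G.rad μ) (uj H u j) (A.e j x) ∧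
      (smo n (G.rad μ) (uj H u j) (A.e j x) : EReal) ≤ bsup (uj H u j) (A.e j x) (3 * G.rad μ) :=
  (smOp_smo n).sm _ _ _ _ (A.e j).open_target (h j) (dn_uj H hd j) (G.rad_pos μ) (G.cball hx μ)

theorem aj_sx (h : PshW H u) (hd : Dn univ u) (μ : ℕ) {j : A.ι} (hx : x ∈ tsupport (G.χ j))
    {i : A.ι} (hi : x ∈ (A.e i).source) :
    SX A (G.aj H μ u j) i x ∧ ∀ ξ, 0 ≤ qf (cur H i x) ξ + qf (hsf A (G.aj H μ u j) i x) ξ := by
  obtain ⟨h1, h2, -⟩ := G.smo_spec h hd μ hx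
  have hj := G.sub j hx
  have li := (A.e i).left_inv hi
  have s1 : SX A (fun y => smo n (G.rad μ) (uj H u j) (A.e j y)) i x :=
    ContDiffAt.comp (A.e i x) (g := smo n (G.rad μ) (uj H u j))
      (f := fun w => A.e j ((A.e i).symm w)) (by rw [li]; exact h1) (Tm_hol ⟨hi, hj⟩)
  have s2 : SX A (H.u j) i x := uj_contDiffAt H ⟨hi, hj⟩
  have e : G.aj H μ u j =ᶠ[𝓝 x] fun y => smo n (G.rad μ) (uj H u j) (A.e j y) - H.u j y := by
    filter_upwards [(A.e j).open_source.mem_nhds hj] with y hy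
    rw [aj, wt_e H hy]
  refine ⟨(s1.sub s2).congr hi e, fun ξ => ?_⟩
  have e2 : cur H i x = hsf A (H.u j) i x := hess_wt_uj H ⟨hi, hj⟩
  rw [hsf_congr hi e, qx_sub s1 s2, e2, add_sub_cancel]
  refine qf_comp_nonneg (u := smo n (G.rad μ) (uj H u j)) (T := fun w => A.e j ((A.e i).symm w))
    (by rw [li]; exact h1) ?_ (by rw [li]; exact h2) ξ
  filter_upwards [(isOpen_ov i j).mem_nhds (mem_ov ⟨hi, hj⟩)] with w hw
  exact (A.holo i j).differentiableAt ((isOpen_ov i j).mem_nhds hw)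

theorem loc_aj (h : PshW H u) (hd : Dn univ u) (μ : ℕ) : G.Loc (G.aj H μ u) :=
  fun _ _ hx _ hi => (G.aj_sx h hd μ hx hi).1

theorem le_aj (h : PshW H u) (hd : Dn univ u) (μ : ℕ) {j : A.ι} (hx : x ∈ tsupport (G.χ j)) :
    u x ≤ G.aj H μ u j x := by
  have h1 := (self_le_bsup _ _ (G.rad_pos μ).le).trans (G.smo_spec h hd μ hx).2.2.1
  rwa [uj_e H u (G.sub j hx), add_coe_le_iff] at h1

theorem aj_le (h : PshW H u) (hd : Dn univ u) (μ : ℕ) {j : A.ι} (hx : x ∈ tsupport (G.χ j))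
    {b : ℝ} (hb : bsup (uj H u j) (A.e j x) (3 * G.rad μ) ≤ ((b + H.wt j (A.e j x) : ℝ) : EReal)) :
    G.aj H μ u j x ≤ b := by
  have h1 := EReal.coe_le_coe_iff.1 ((G.smo_spec h hd μ hx).2.2.2.trans hb)
  unfold aj
  linarith

theorem aj_succ (h : PshW H u) (hd : Dn univ u) (μ : ℕ) {j : A.ι} (hx : x ∈ tsupport (G.χ j)) :
    G.aj H (μ + 1) u j x ≤ G.aj H μ u j x := by
  refine G.aj_le h hd (μ + 1) hx ?_
  rw [G.rad_succ, aj, sub_add_cancel]
  exact (G.smo_spec h hd μ hx).2.2.1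

theorem ev_aj_le (h : PshW H u) (hd : Dn univ u) {b : ℝ} (hb : u x < b) :
    ∀ᶠ μ in atTop, ∀ j, x ∈ tsupport (G.χ j) → G.aj H μ u j x ≤ b := by
  refine (eventually_all_finite (G.fin_J x)).2 fun j hx => ?_
  have h1 : uj H u j (A.e j x) < ((b + H.wt j (A.e j x) : ℝ) : EReal) := by
    rw [uj_e H u (G.sub j hx), add_coe_lt_iff]
    simpa using hb
  filter_upwards [G.tendsto_rad.eventually (ev_bsup_le ((h j).uscAt (A.e j).open_target
    ((A.e j).map_source (G.sub j hx))) h1)] with μ h2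
  exact G.aj_le h hd μ hx h2

theorem rg_sm (h : PshW H u) (hd : Dn univ u) (p : ℝ) (μ : ℕ) : A.Sm (G.rg H p μ u) :=
  (G.loc_aj h hd μ).sm_lse

theorem rg_anti (h : PshW H u) (hd : Dn univ u) (hp : 0 < p) (x : M) :
    Antitone fun μ => G.rg H p μ u x := antitone_nat_of_succ_le fun μ => by
  simpa [rg] using G.lse_le (c := 0) hp fun j hj => by simpa using G.aj_succ h hd μ hj

theorem le_rg (h : PshW H u) (hd : Dn univ u) (hp : 0 < p) (μ : ℕ) (x : M) :
    u x + (G.cor p x : ℝ) ≤ (G.rg H p μ u x : ℝ) := by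
  induction' e : u x with c
  · simp
  · rw [← EReal.coe_add, EReal.coe_le_coe_iff]
    exact G.cor_le_lse hp fun j hj => EReal.coe_le_coe_iff.1 (e ▸ G.le_aj h hd μ hj)
  · exact absurd e (h.lt_top x).ne

theorem le_rg' (h : PshW H u) (hd : Dn univ u) (hp : 0 < p) (μ : ℕ) (x : M) :
    u x ≤ (G.rg H p μ u x : ℝ) :=
  (le_add_of_nonneg_right (EReal.coe_nonneg.2 (G.cor_nonneg hp x))).trans (G.le_rg h hd hp μ x)

theorem ev_rg_le (h : PshW H u) (hd : Dn univ u) (hp : 0 < p) {b : ℝ} (hb : u x < b) :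
    ∀ᶠ μ in atTop, G.rg H p μ u x ≤ b + G.cor p x :=
  (G.ev_aj_le h hd hb).mono fun _ h1 => G.lse_le_cor hp h1

theorem rg_tendsto (h : PshW H u) (hd : Dn univ u) (hp : 0 < p) (x : M) :
    Tendsto (fun μ => (G.rg H p μ u x : EReal)) atTop (𝓝 (u x + (G.cor p x : ℝ))) := by
  refine tendsto_order.2 ⟨fun a ha => Eventually.of_forall fun μ =>
    ha.trans_le (G.le_rg h hd hp μ x), fun a ha => ?_⟩
  obtain ⟨c, h1, h2⟩ := EReal.lt_iff_exists_real_btwn.1 ha
  filter_upwards [G.ev_rg_le h hd hp (add_coe_lt_iff.1 h1)] with μ h3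
  exact lt_of_le_of_lt (EReal.coe_le_coe_iff.2 (by linarith)) h2

theorem rg_tendsto_real (h : PshW H u) (hd : Dn univ u) (hp : 0 < p) (hx : u x ≠ ⊥) :
    Tendsto (fun μ => G.rg H p μ u x) atTop (𝓝 ((u x).toReal + G.cor p x)) := by
  have h1 := G.rg_tendsto h hd hp x
  rw [← EReal.coe_toReal (h.lt_top x).ne hx, ← EReal.coe_add] at h1
  exact EReal.tendsto_coe.1 h1


theorem lam_nonneg (H : KP A) (p : ℝ) (μ : ℕ) (u : M → EReal) (x : M) : 0 ≤ G.lam H p μ u x :=
  le_max_right _ _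

theorem rg_cur (h : PshW H u) (hd : Dn univ u) (hp : 0 < p) (μ : ℕ) {i : A.ι}
    (hx : x ∈ (A.e i).source) (ξ : Fin n → ℂ) :
    0 ≤ qf (cur H i x) ξ + qf (hsf A (G.rg H p μ u) i x) ξ +
      (G.eps p + G.lam H p μ u x) * qf (g i x) ξ := by
  refine ((G.loc_aj h hd μ).cur_lse hp hx (fun j hj => (G.aj_sx h hd μ hj hx).2) ξ).trans ?_
  refine add_le_add le_rfl (mul_le_mul_of_nonneg_right ?_ (G.nn i x hx ξ))
  linarith [le_max_left (G.los p (G.aj H μ u) x - G.eps p) 0, show G.lam H p μ u x =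
    max (G.los p (G.aj H μ u) x - G.eps p) 0 from rfl]

theorem measurable_lam [MeasurableSpace M] [OpensMeasurableSpace M] (h : PshW H u)
    (hd : Dn univ u) (p : ℝ) (μ : ℕ) : Measurable (G.lam H p μ u) :=
  ((G.loc_aj h hd μ).measurable_los.sub_const _).max measurable_const

theorem lam_tendsto (h : PshW H u) (hd : Dn univ u) (hp : 0 < p) (hx : u x ≠ ⊥) :
    Tendsto (fun μ => G.lam H p μ u x) atTop (𝓝 0) := by
  have e := EReal.coe_toReal (h.lt_top x).ne hx
  have hc : ContinuousAt (fun c : ℝ => G.eps p * Real.exp (p * c) - G.eps p) 0 := by fun_prop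
  refine tendsto_order.2 ⟨fun a ha => Eventually.of_forall fun μ =>
    ha.trans_le (G.lam_nonneg H p μ u x), fun a ha => ?_⟩
  obtain ⟨c, h1, h2⟩ := (((hc.eventually_lt_const (by simpa using ha)).filter_mono
    nhdsWithin_le_nhds).and (self_mem_nhdsWithin (s := Ioi (0 : ℝ)))).exists
  have h3 : u x < (((u x).toReal + c : ℝ) : EReal) := lt_coe_add e.ge h2
  filter_upwards [G.ev_aj_le h hd h3] with μ h4
  refine max_lt (lt_of_le_of_lt (sub_le_sub_right (G.los_le hp fun i j hi hj => ?_) _) h1) ha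
  have h5 := G.le_aj h hd μ hi
  rw [← e, EReal.coe_le_coe_iff] at h5
  linarith [h4 j hj]

theorem aj_mono (h : PshW H u) (hd : Dn univ u) (h' : PshW H u') (hd' : Dn univ u') (μ : ℕ)
    {j : A.ι} (hx : x ∈ tsupport (G.χ j)) {a : ℝ}
    (hle : ∀ y, G.Near (3 * G.rad μ) x y → u' y ≤ u y + a) :
    G.aj H μ u' j x ≤ G.aj H μ u j x + a := by
  have h1 := (smOp_smo n).mono _ _ _ _ _ _ a (A.e j).open_target (h j) (dn_uj H hd j)
    (A.e j).open_target (h' j) (dn_uj H hd' j) (G.rad_pos μ) (G.cball hx μ) (G.cball hx μ)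
    fun z hz => by
      unfold uj
      rw [add_right_comm]
      exact add_le_add (hle _ ⟨j, hx, z, hz, rfl⟩) le_rfl
  unfold aj
  linarith

/-- the regularization is monotone, local and commutes with constants -/
theorem rg_mono (h : PshW H u) (hd : Dn univ u) (h' : PshW H u') (hd' : Dn univ u') (hp : 0 < p)
    (μ : ℕ) {a : ℝ} (hle : ∀ y, G.Near (3 * G.rad μ) x y → u' y ≤ u y + a) :
    G.rg H p μ u' x ≤ G.rg H p μ u x + a :=
  G.lse_le hp fun _ hj => G.aj_mono h hd h' hd' μ hj hle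



/-- far from a compact set the regularization does not see the set -/
theorem ev_far [T2Space M] {K W : Set M} (hK : IsCompact K) (hW : IsOpen W) (hKW : K ⊆ W) :
    ∀ᶠ μ in atTop, ∀ x, x ∉ W → ∀ y, G.Near (3 * G.rad μ) x y → y ∉ K := by
  have h1 : ∀ᶠ μ in atTop, ∀ j ∈ {j | (K ∩ (A.e j).source).Nonempty}, ∀ x ∈ tsupport (G.χ j),
      x ∉ W → ∀ z ∈ closedBall (A.e j x) (3 * G.rad μ), (A.e j).symm z ∉ K := by
    refine (eventually_all_finite (G.lf K hK)).2 fun j _ => ?_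
    have c1 : IsCompact (A.e j '' (tsupport (G.χ j) ∩ Wᶜ)) :=
      ((G.cpt j).inter_right hW.isClosed_compl).image_of_continuousOn
        ((A.e j).continuousOn.mono fun x hx => G.sub j hx.1)
    have o1 : IsOpen ((A.e j).target ∩ (A.e j).symm ⁻¹' Kᶜ) :=
      (A.e j).isOpen_inter_preimage_symm hK.isClosed.isOpen_compl
    obtain ⟨δ, hδ, h2⟩ := exists_inn o1 c1 (by
      rintro _ ⟨x, hx, rfl⟩
      refine ⟨(A.e j).map_source (G.sub j hx.1), ?_⟩
      rw [mem_preimage, (A.e j).left_inv (G.sub j hx.1)]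
      exact fun h => hx.2 (hKW h))
    filter_upwards [G.tendsto_rad.eventually (eventually_le_nhds hδ)] with μ h3 x hx hxW z hz
    exact (h2 ⟨x, ⟨hx, hxW⟩, rfl⟩ (closedBall_subset_closedBall h3 hz)).2
  filter_upwards [h1] with μ h2 x hx
  rintro _ ⟨j, hj, z, hz, rfl⟩ hy
  exact h2 j ⟨_, hy, (A.e j).map_target (G.cball hj μ hz)⟩ x hj hx z hz hy

/-! ### uniform bounds -/

variable {G}

theorem PB.bsup_le (hL : G.PB H L) {j : A.ι} (hx : x ∈ tsupport (G.χ j)) {ρ b : ℝ}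
    (hρ : ρ ≤ G.r) (hb : ∀ z ∈ closedBall (A.e j x) ρ, u ((A.e j).symm z) ≤ b) :
    bsup (uj H u j) (A.e j x) ρ ≤ ((b + L * ρ + H.wt j (A.e j x) : ℝ) : EReal) := by
  refine Kis.bsup_le fun z hz => (add_le_coe (hb z hz) le_rfl).trans (EReal.coe_le_coe_iff.2 ?_)
  have h1 := (abs_le.1 (hL.2 j x hx z (closedBall_subset_closedBall hρ hz))).2
  nlinarith [hL.1, mem_closedBall.1 hz]

theorem PB.le_of_bsup (hL : G.PB H L) {j : A.ι} (hx : x ∈ tsupport (G.χ j)) {ρ b : ℝ}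
    (hρ : ρ ≤ G.r) (hb : bsup (uj H u j) (A.e j x) ρ ≤ ((b + H.wt j (A.e j x) : ℝ) : EReal))
    {z : Cn n} (hz : z ∈ closedBall (A.e j x) ρ) :
    u ((A.e j).symm z) ≤ ((b + L * ρ : ℝ) : EReal) := by
  have h2 := add_coe_le_iff.1 ((le_bsup (uj H u j) hz).trans hb)
  refine h2.trans (EReal.coe_le_coe_iff.2 ?_)
  have h1 := (abs_le.1 (hL.2 j x hx z (closedBall_subset_closedBall hρ hz))).1
  nlinarith [hL.1, mem_closedBall.1 hz]

variable (G)

theorem rg_le (h : PshW H u) (hd : Dn univ u) (hL : G.PB H L) (hp : 0 < p) (μ : ℕ) {b : ℝ}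
    (hb : ∀ y, G.Near (3 * G.rad μ) x y → u y ≤ b) :
    G.rg H p μ u x ≤ b + L * (3 * G.rad μ) + G.cor p x :=
  G.lse_le_cor hp fun j hj => G.aj_le h hd μ hj
    (hL.bsup_le hj (G.rad_le_r μ) fun z hz => hb _ ⟨j, hj, z, hz, rfl⟩)

theorem rg_le_const (h : PshW H u) (hd : Dn univ u) (hL : G.PB H L) (hp : 0 < p) (μ : ℕ)
    (hC : ∀ y, u y ≤ C) (x : M) :
    G.rg H p μ u x ≤ C + L * G.r + Real.log (G.m * G.B) / p := by
  have h1 := G.rg_le (x := x) h hd hL hp μ fun y _ => hC y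
  nlinarith [G.cor_le hp x, G.rad_le_r μ, hL.1]

theorem aj_osc (h : PshW H u) (hL : G.PB H L) (hU : G.Unif u C) (μ : ℕ) {i j : A.ι}
    (hi : x ∈ tsupport (G.χ i)) (hj : x ∈ tsupport (G.χ j)) :
    G.aj H μ u j x ≤ G.aj H μ u i x + G.osc C L := by
  have hd := hU.dn h
  have r0 := G.r0
  have h1 := hL.bsup_le (u := u) hi le_rfl fun z _ => hU.1 _
  obtain ⟨z, hz, h2⟩ := hU.2 i x hi
  have h3 : ((-C - L * G.r + H.wt i (A.e i x) : ℝ) : EReal) ≤
      bsup (uj H u i) (A.e i x) (G.r / 2) := by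
    refine le_trans ?_ (le_bsup _ hz)
    refine le_trans ?_ (add_le_add h2 le_rfl)
    rw [← EReal.coe_add, EReal.coe_le_coe_iff]
    have h4 := (abs_le.1 (hL.2 i x hi z (closedBall_subset_closedBall (by linarith) hz))).1
    nlinarith [hL.1, mem_closedBall.1 hz]
  have h4 := bsup_slope (A.e i).open_target (h i) r0 (G.ball i x hi) h3 h1 (G.rad_pos μ)
    (lam := 3 * G.Λ) (by linarith [G.Λ1]) (G.rad_le μ) (G.smo_spec h hd μ hi).2.2.1
  set c := (2 * C + 2 * L * G.r) / Real.log 2 * Real.log (3 * G.Λ) with hc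
  have h5 : bsup (uj H u i) (A.e i x) (3 * G.Λ * G.rad μ) ≤
      ((G.aj H μ u i x + c + H.wt i (A.e i x) : ℝ) : EReal) := by
    refine h4.trans (le_of_eq ?_)
    rw [hc, aj]
    congr 1
    ring
  have h6 : 3 * G.rad μ ≤ G.r / G.Λ := by
    rw [le_div_iff₀ G.L0]
    linarith [G.rad_le μ]
  have h7 := G.aj_le h hd μ hj (hL.bsup_le hj (G.rad_le_r μ)
    (b := G.aj H μ u i x + c + L * (3 * G.Λ * G.rad μ)) fun w hw => by
      obtain ⟨t1, t2⟩ := G.tr j i x hj hi w (closedBall_subset_closedBall h6 hw)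
      have t3 := hL.le_of_bsup hi (by linarith [G.rad_le μ]) h5
        (z := A.e i ((A.e j).symm w)) (mem_closedBall.2 (t2.trans (by
          nlinarith [mem_closedBall.1 hw, G.L0])))
      rwa [(A.e i).left_inv t1] at t3)
  unfold osc
  nlinarith [G.rad_le μ, G.rad_le' μ, hL.1]

theorem lam_le (h : PshW H u) (hL : G.PB H L) (hU : G.Unif u C) (hp : 0 < p) (μ : ℕ) (x : M) :
    G.lam H p μ u x ≤ G.eps p * Real.exp (p * G.osc C L) :=
  max_le ((sub_le_self _ (G.eps_nonneg hp)).trans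
    (G.los_le hp fun _ _ hi hj => G.aj_osc h hL hU μ hi hj))
    (mul_nonneg (G.eps_nonneg hp) (Real.exp_pos _).le)

theorem tendsto_eps {q : ℕ → ℝ} (hq : Tendsto q atTop atTop) :
    Tendsto (fun ν => G.eps (q ν)) atTop (𝓝 0) := hq.const_div_atTop _

end BG

end Crest.Agent.X261.Reg
end
end

-- ▼ part X261/Hs/J
section

/-!
# X261 / Hs (helper68): the smooth approximations of the weights of `Pol`

* `ap_rg` : `Ap` from the regularization `rg`;
* `pol_dn`, `pol_dnS` : the weights of `Pol` are finite on a dense set;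
* `pol_ap` : the approximations of `φ` and `S ρ` on the cover.
-/

set_option autoImplicit false
set_option linter.unusedSectionVars false

open Set Filter Topology Metric MeasureTheory
open scoped ContDiff ComplexConjugate ENNReal

namespace Crest.Agent.X261.Hs

open Crest.Agent.R275.Geo Crest.Agent.R273.UCov_914
open Crest.Agent.R275.Core144 (LB KB)
open Crest.Agent.R273.Defs_333 (HM)
open Crest.Agent.R273.Kah_333 (hsf Kah)
open Crest.Agent.R273.Vm_333 (vm)
open Crest.Agent.R273.RMan4_798 (pullKah)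
open Crest.Agent.X261.Psh Crest.Agent.X261.Reg
open Crest.Agent.X261.Top (Fol Pol eN)
open Crest.Agent.X261.Jet.HL (Th WS)

noncomputable section

variable {n : ℕ}

section abs

variable {M : Type} [TopologicalSpace M] {B : Atl n M} [Countable B.ι] [T2Space M]
  [MeasurableSpace M] [BorelSpace M]

theorem nat_pos' (ν : ℕ) : (0 : ℝ) < (ν : ℝ) + 1 := by positivity

/-- the regularizations of a uniform weight `u ≤ 0` -/
theorem ap_rg (K : Kah B) (G : BG B K.g) {L : LB B} (h : HM L) (vol : HM (KB B)⁻¹)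
    {u : M → EReal} (hu : PshW (kp h) u) {c C : ℝ} (hL : G.PB (kp h) c) (hU : G.Unif u C)
    (h0 : ∀ x, u x ≤ 0) :
    Ap K h vol (fun x => (u x).toReal) (fun ν μ => G.rg (kp h) (ν + 1) μ u)
      (fun ν μ => G.lam (kp h) (ν + 1) μ u) (fun ν => G.eps (ν + 1)) (fun ν => G.cor (ν + 1))
      (c * G.r + |Real.log (G.m * G.B)|) := by
  have hd := hU.dn hu
  have hae := ae_ne_bot vol hu hd
  have ht : Tendsto (fun ν : ℕ => (ν : ℝ) + 1) atTop atTop :=
    tendsto_atTop_add_const_right _ _ tendsto_natCast_atTop_atTop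
  have hc := mul_nonneg hL.1 G.r0.le
  refine ⟨⟨fun ν μ => G.rg_sm hu hd _ μ, fun ν x => G.rg_anti hu hd (nat_pos' ν) x, fun ν x => ?_,
    fun ν μ => G.measurable_lam hu hd _ μ, fun ν μ x => G.lam_nonneg _ _ _ _ x,
    fun ν => ⟨_, fun μ x => G.lam_le hu hL hU (nat_pos' ν) μ x⟩,
    fun ν => hae.mono fun x hx => G.lam_tendsto hu hd (nat_pos' ν) hx,
    fun ν => G.eps_nonneg (nat_pos' ν), G.tendsto_eps ht, fun ν μ i x hx ξ => ?_⟩,
    hu.measurable.ereal_toReal, fun x => ?_,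
    fun ν => hae.mono fun x hx => G.rg_tendsto_real hu hd (nat_pos' ν) hx,
    fun ν x => G.cor_nonneg (nat_pos' ν) x, fun x => ?_⟩
  · have h1 := G.rg_le_const (C := 0) hu hd hL (nat_pos' ν) 0 h0 x
    have h2 : Real.log (G.m * G.B) / ((ν : ℝ) + 1) ≤ |Real.log (G.m * G.B)| :=
      (div_le_div_of_nonneg_right (le_abs_self _) (nat_pos' ν).le).trans
        (div_le_self (abs_nonneg _) (by linarith [(Nat.cast_nonneg ν : (0 : ℝ) ≤ ν)]))
    linarith
  · rw [Th_eq]
    exact G.rg_cur hu hd (nat_pos' ν) μ hx ξ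
  · exact (EReal.toReal_nonpos (h0 x)).trans (add_nonneg hc (abs_nonneg _))
  · exact squeeze_zero (fun ν => G.cor_nonneg (nat_pos' ν) x) (fun ν => G.cor_le (nat_pos' ν) x)
      (ht.const_div_atTop _)

theorem off_rg {g : X277.AN.Mat B} (G : BG B g) {H : R281.Kp_487.KP B} {u u' : M → EReal}
    (hu : PshW H u) (hd : Dn univ u) (hu' : PshW H u') (hd' : Dn univ u') {Z W : Set M}
    (hZ : IsCompact Z) (hW : IsOpen W) (hZW : Z ⊆ W) {a : ℝ}
    (ha : ∀ x ∉ Z, u x - (a : EReal) ≤ u' x) {p : ℝ} (hp : 0 < p) :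
    ∀ᶠ μ in atTop, ∀ x ∉ W, G.rg H p μ u x - a ≤ G.rg H p μ u' x := by
  filter_upwards [G.ev_far hZ hW hZW] with μ hμ x hx
  rw [sub_le_iff_le_add]
  refine G.rg_mono hu' hd' hu hd hp μ fun y hy => ?_
  exact (EReal.sub_le_iff_le_add (Or.inl (EReal.coe_ne_bot a)) (Or.inl (EReal.coe_ne_top a))).1
    (ha y (hμ x hx y hy))

end abs

variable {X : Type} [TopologicalSpace X] {A : Atl n X} {Γ : Type} [Group Γ] {D : MonD A Γ} {p : ℕ}
  {F : Fol D p} {h : HM F.L}

theorem pol_dn [ConnectedSpace (D.cov Γ)] (Q : Pol F h) : Dn univ Q.φ := by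
  refine dn_conn (H := kp (D.pullHM (F := Γ) h)) Q.φ_psh ?_
  by_contra hc
  push Not at hc
  obtain ⟨V, hV, hi⟩ := Q.int 1 one_pos
  simp only [hc, eN, EReal.coe_one, one_mul, EReal.neg_bot, EReal.exp_top,
    setLIntegral_const] at hi
  rw [ENNReal.top_mul (Measure.measure_pos_of_mem_nhds _ hV).ne'] at hi
  exact lt_irrefl _ hi

theorem pol_dnS [ConnectedSpace (D.cov Γ)] (hp : 1 ≤ p) (Q : Pol F h) {ρ : ℝ}
    (hρ : ρ ∈ Ioo (0 : ℝ) 1) : Dn univ (Q.S ρ) := by
  refine dn_conn (H := kp (D.pullHM (F := Γ) h)) (Q.S_psh ρ hρ) ?_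
  obtain ⟨a, ha⟩ := Q.S_ge ρ hρ
  have := X277.AN.nontrivial_Cn hp
  obtain ⟨y, hy⟩ := exists_norm_eq (Cn p) (c := (ρ + 1) / 2) (by linarith [hρ.1])
  have hy' : y ∈ F.T.π Q.x₀ '' F.T.T Q.x₀ := by
    rw [F.T.π_img _ Q.x₀_mem, mem_ball_zero_iff, hy]
    linarith [hρ.2]
  obtain ⟨x, hx, rfl⟩ := hy'
  have hO : IsOpen (F.T.T Q.x₀ ∩ (fun y => ‖F.T.π Q.x₀ y‖) ⁻¹' Ioi ρ) :=
    (F.T.π_cont _ Q.x₀_mem).norm.isOpen_inter_preimage (F.T.T_opn _ Q.x₀_mem) isOpen_Ioi
  obtain ⟨z, h1, h2⟩ := ((pol_dn Q x (mem_univ x)).and_eventually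
    (hO.mem_nhds ⟨hx, by rw [mem_preimage, hy, mem_Ioi]; linarith [hρ.2]⟩)).exists
  refine ⟨z, fun h3 => h1 ?_⟩
  have h4 := ha z fun h5 => lt_asymm h5.2 h2.2
  rw [h3, le_bot_iff, sub_eq_add_neg, EReal.add_eq_bot_iff, ← EReal.coe_neg] at h4
  exact h4.resolve_right (EReal.coe_ne_bot _)

/-- **the approximations of the weights of `Pol`** -/
theorem pol_ap [CompactSpace X] [T2Space X] [Finite A.ι] (P : Part A) (K0 : Kah A)
    [Countable (D.atl Γ).ι] [ConnectedSpace (D.cov Γ)] [MeasurableSpace (D.cov Γ)]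
    [BorelSpace (D.cov Γ)] (hp : 1 ≤ p) (Q : Pol F h) {ρ : ℝ} (hρ : ρ ∈ Ioo (0 : ℝ) 1)
    (vol : HM (KB (D.atl Γ))⁻¹) {W : Set (D.cov Γ)} (hW : IsOpen W)
    (hsub : {x | x ∈ F.T.T Q.x₀ ∧ ‖F.T.π Q.x₀ x‖ ≤ ρ} ⊆ W) :
    ∃ (f lf g lg : ℕ → ℕ → D.cov Γ → ℝ) (eps : ℕ → ℝ) (cr : ℕ → D.cov Γ → ℝ) (C0 : ℝ),
      Ap (pullKah D Γ K0) (D.pullHM (F := Γ) h) vol (fun x => (Q.φ x).toReal) f lf eps cr C0 ∧
      Ap (pullKah D Γ K0) (D.pullHM (F := Γ) h) vol (fun x => (Q.S ρ x).toReal) g lg eps cr C0 ∧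
      (∀ᵐ x ∂(vm vol), Q.φ x ≠ ⊥ ∧ Q.S ρ x ≠ ⊥) ∧ (∀ ν μ x, Q.φ x ≤ f ν μ x) ∧
      (∀ᵐ x ∂(vm vol), (Q.S ρ x).toReal ≤ (Q.φ x).toReal) ∧
      ∃ a : ℝ, ∀ ν, ∀ᶠ μ in atTop, ∀ x ∉ W, f ν μ x - a ≤ g ν μ x := by
  obtain ⟨G⟩ := exists_bg P K0
  obtain ⟨c, hc⟩ := pb_pull D Γ G h
  have h1 : PshW (kp (D.pullHM (F := Γ) h)) Q.φ := Q.φ_psh
  have h2 : PshW (kp (D.pullHM (F := Γ) h)) (Q.S ρ) := Q.S_psh ρ hρ
  have d1 := pol_dn Q
  have d2 := pol_dnS hp Q hρ
  have hS0 : ∀ x, Q.S ρ x ≤ 0 := fun x => (Q.S_le ρ hρ x).trans (Q.φ_le x)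
  obtain ⟨C, hC⟩ := unif_inv D G d1 Q.φ_inv (C := 0) Q.φ_le
  obtain ⟨a, ha⟩ := Q.S_ge ρ hρ
  have hZ := F.T.π_prop _ Q.x₀_mem ρ hρ.2
  have ha' : ∀ x ∉ {x | x ∈ F.T.T Q.x₀ ∧ ‖F.T.π Q.x₀ x‖ ≤ ρ}, Q.φ x - (a : EReal) ≤ Q.S ρ x :=
    fun x hx => ha x fun h3 => hx ⟨h3.1, h3.2.le⟩
  obtain ⟨C', hC'⟩ := unif_ge (pullBG D Γ G) hC d2
    (fun x => (Q.S_le ρ hρ x).trans (hC.1 x)) hZ ha'
  have e1 := ae_ne_bot vol h1 d1
  have e2 := ae_ne_bot vol h2 d2
  refine ⟨_, _, _, _, _, _, _, ap_rg _ (pullBG D Γ G) _ vol h1 hc hC Q.φ_le,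
    ap_rg _ (pullBG D Γ G) _ vol h2 hc hC' hS0, e1.and e2,
    fun ν μ x => (pullBG D Γ G).le_rg' h1 d1 (nat_pos' ν) μ x, ?_, a,
    fun ν => off_rg _ h1 d1 h2 d2 hZ hW hsub ha' (nat_pos' ν)⟩
  filter_upwards [e2] with x hx
  exact EReal.toReal_le_toReal (Q.S_le ρ hρ x) hx (h1.lt_top x).ne

end

end Crest.Agent.X261.Hs
end

-- ▼ part X261/Hc/PoinA
section

/-!
# Row 261, POIN (helper17), part A: power sums of a square-summable family of holomorphic functions

`flat`: if `a k v` (`k ≤ p`, `v ∈ G` countable) are holomorphic on a ball, bounded by a square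
summable family, and the ratios `a k v0 / a 0 v0` have independent differentials at the centre,
then at some point of the ball `p + 1` of the power sums `∑_v (a k v)^(m+2)` are non zero and their
normalised logarithmic differentials are affinely independent.
-/

set_option autoImplicit false
set_option linter.unusedSectionVars false
set_option linter.dupNamespace false

open Set Filter Topology Metric

namespace Crest.Agent.X261.Hc

open Crest.Agent.R266

noncomputable section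

/-- infinite Vandermonde argument -/
theorem vdm {G : Type*} {a c : G → ℂ} (ha : Tendsto a cofinite (𝓝 0))
    (h : ∀ m : ℕ, HasSum (fun v => a v ^ m * c v) 0) {v0 : G} (h0 : a v0 ≠ 0)
    (hc : ∀ v, a v = a v0 → c v = c v0) : c v0 = 0 := by
  classical
  have step : ∀ T : Finset G, ∀ m : ℕ,
      HasSum (fun v => a v ^ m * (c v * ∏ w ∈ T, (a v - a w))) 0 := by
    intro T
    induction T using Finset.induction_on with
    | empty => simpa using h
    | insert w T hw ih =>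
      intro m
      have h1 := (ih (m + 1)).sub ((ih m).mul_left (a w))
      rw [mul_zero, sub_zero] at h1
      have h2 : (fun v => a v ^ m * (c v * ∏ w ∈ insert w T, (a v - a w))) = fun v =>
          a v ^ (m + 1) * (c v * ∏ w ∈ T, (a v - a w)) -
            a w * (a v ^ m * (c v * ∏ w ∈ T, (a v - a w))) := by
        funext v
        rw [Finset.prod_insert hw]
        ring
      rw [h2]
      exact h1
  have hpos : 0 < ‖a v0‖ := norm_pos_iff.2 h0
  have hfin : {v | ‖a v0‖ ≤ ‖a v‖}.Finite := by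
    have h1 : ∀ᶠ v in cofinite, ‖a v‖ < ‖a v0‖ := by
      have := ha.norm
      rw [norm_zero] at this
      exact this.eventually (gt_mem_nhds hpos)
    rw [eventually_cofinite] at h1
    simpa only [not_lt] using h1
  have hT : {v | ‖a v0‖ ≤ ‖a v‖ ∧ a v ≠ a v0}.Finite := hfin.subset fun v hv => hv.1
  have hS : {v | a v = a v0}.Finite := hfin.subset fun v hv => by
    have : a v = a v0 := hv
    simp [this]
  set T := hT.toFinset with hTdef
  set c' : G → ℂ := fun v => c v * ∏ w ∈ T, (a v - a w) with hc'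
  have hz : ∀ v, ‖a v0‖ ≤ ‖a v‖ → a v ≠ a v0 → c' v = 0 := by
    intro v h1 h2
    have : v ∈ T := hT.mem_toFinset.2 ⟨h1, h2⟩
    simp only [hc']
    rw [Finset.prod_eq_zero this (sub_self _), mul_zero]
  have hsum : Summable fun v => ‖c' v‖ := by
    have := (step T 0).summable
    simp only [pow_zero, one_mul] at this
    exact this.norm
  have hlim := tendsto_tsum_of_dominated_convergence (𝓕 := atTop)
    (f := fun (m : ℕ) v => (a v / a v0) ^ m * c' v)
    (g := fun v => if a v = a v0 then c' v0 else 0) hsum (fun v => ?_) (Eventually.of_forall ?_)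
  · have h1 : (fun m : ℕ => ∑' v, (a v / a v0) ^ m * c' v) = fun _ => 0 := by
      funext m
      have h2 := (step T m).mul_left ((a v0)⁻¹ ^ m)
      rw [mul_zero] at h2
      rw [← h2.tsum_eq]
      congr 1
      funext v
      simp only [hc']
      rw [div_eq_mul_inv, mul_pow]
      ring
    rw [h1] at hlim
    have h2 := tendsto_nhds_unique hlim tendsto_const_nhds
    rw [tsum_eq_sum (f := fun v => if a v = a v0 then c' v0 else 0) (s := hS.toFinset)
      (fun v hv => if_neg fun h => hv (hS.mem_toFinset.2 h)),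
      Finset.sum_congr rfl (f := fun v => if a v = a v0 then c' v0 else 0) (g := fun _ => c' v0)
        (fun v hv => if_pos (hS.mem_toFinset.1 hv)), Finset.sum_const, nsmul_eq_mul] at h2
    have h3 : (hS.toFinset.card : ℂ) ≠ 0 := by
      rw [Nat.cast_ne_zero, Finset.card_ne_zero]
      exact ⟨v0, hS.mem_toFinset.2 rfl⟩
    have h4 : c' v0 = 0 := (mul_eq_zero.1 h2).resolve_left h3
    refine (mul_eq_zero.1 h4).resolve_right ?_
    refine Finset.prod_ne_zero_iff.2 fun w hw => ?_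
    exact sub_ne_zero.2 (hT.mem_toFinset.1 hw).2.symm
  · by_cases h1 : a v = a v0
    · have h2 : c' v = c' v0 := by simp only [hc', h1, hc v h1]
      simp only [h1, div_self h0, one_pow, one_mul, h2, if_true]
      exact tendsto_const_nhds
    · simp only [if_neg h1]
      by_cases h2 : ‖a v0‖ ≤ ‖a v‖
      · simp only [hz v h2 h1, mul_zero]
        exact tendsto_const_nhds
      · have h3 : ‖a v / a v0‖ < 1 := by
          rw [norm_div, div_lt_one hpos]
          exact not_le.1 h2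
        simpa using (tendsto_pow_atTop_nhds_zero_of_norm_lt_one h3).mul_const (c' v)
  · intro m v
    by_cases h2 : ‖a v‖ ≤ ‖a v0‖
    · rw [norm_mul, norm_pow]
      have h3 : ‖a v / a v0‖ ≤ 1 := by
        rw [norm_div, div_le_one hpos]
        exact h2
      exact mul_le_of_le_one_left (norm_nonneg _) (pow_le_one₀ (norm_nonneg _) h3)
    · have h3 : a v ≠ a v0 := fun h => h2 (by rw [h])
      rw [hz v (not_le.1 h2).le h3]
      simp

variable {E : Type} [NormedAddCommGroup E] [NormedSpace ℂ E]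

/-- termwise differentiation of a normally convergent series of holomorphic functions -/
theorem tsum_hol {G : Type*} {f : G → E → ℂ} {y : E} {r : ℝ} (hr : 0 < r) {B : G → ℝ}
    (hB : Summable B) (hf : ∀ v, DifferentiableOn ℂ (f v) (ball y r))
    (hb : ∀ v, ∀ w ∈ ball y r, ‖f v w‖ ≤ B v) :
    HasFDerivAt (fun w => ∑' v, f v w) (∑' v, fderiv ℂ (f v) y) y ∧
      Summable fun v => fderiv ℂ (f v) y := by
  have hsub : ∀ x ∈ ball y (r / 2), ball x (r / 2) ⊆ ball y r := by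
    intro x hx
    refine ball_subset_ball' ?_
    rw [mem_ball] at hx
    linarith
  have hd : ∀ v, ∀ x ∈ ball y (r / 2), ‖fderiv ℂ (f v) x‖ ≤ B v / (r / 2) := fun v x hx =>
    SCV.norm_fderiv_le_of_ball (half_pos hr) ((hf v).mono (hsub x hx))
      fun w hw => hb v w (hsub x hx hw)
  have hu : Summable fun v => B v / (r / 2) := hB.div_const _
  refine ⟨hasFDerivAt_tsum_of_isPreconnected (f' := fun v x => fderiv ℂ (f v) x) hu isOpen_ball
    (convex_ball y (r / 2)).isPreconnected (fun v x hx => ?_) hd (mem_ball_self (half_pos hr))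
    (Summable.of_norm_bounded hB fun v => hb v y (mem_ball_self hr))
    (mem_ball_self (half_pos hr)),
    Summable.of_norm_bounded hu fun v => hd v y (mem_ball_self (half_pos hr))⟩
  exact ((hf v).differentiableAt (isOpen_ball.mem_nhds
    (ball_subset_ball (half_le_self hr.le) hx))).hasFDerivAt

theorem pw_bd {G : Type*} {b : G → ℝ} (hb : Summable b) (hb0 : ∀ v, 0 ≤ b v) {v : G} {x : ℂ}
    (hx : ‖x‖ ^ 2 ≤ b v) (m : ℕ) : ‖x ^ (m + 2)‖ ≤ (1 + ∑' v, b v) ^ m * b v := by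
  have h1 : b v ≤ ∑' v, b v := hb.le_tsum v fun w _ => hb0 w
  have h2 : ‖x‖ ≤ 1 + ∑' v, b v := by nlinarith [norm_nonneg x]
  rw [norm_pow, pow_add]
  exact mul_le_mul (pow_le_pow_left₀ (norm_nonneg _) h2 m) hx (by positivity)
    (pow_nonneg ((norm_nonneg _).trans h2) m)

theorem fderiv_pw {f : E → ℂ} {y : E} (hf : DifferentiableAt ℂ f y) (m : ℕ) :
    fderiv ℂ (fun w => f w ^ (m + 1)) y = (((m + 1 : ℕ) : ℂ) * f y ^ m) • fderiv ℂ f y := by
  have h7 := (hf.hasFDerivAt.pow (m + 1)).fderiv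
  rw [nsmul_eq_mul] at h7
  exact h7

/-- power sums -/
def pws {G : Type*} (a : G → E → ℂ) (m : ℕ) (w : E) : ℂ := ∑' v, a v w ^ (m + 2)

section one

variable {G : Type*} {a : G → E → ℂ} {U : Set E} {b : G → ℝ}

theorem pws_has (hU : IsOpen U) (hb : Summable b) (hol : ∀ v, DifferentiableOn ℂ (a v) U)
    (bd : ∀ v, ∀ w ∈ U, ‖a v w‖ ^ 2 ≤ b v) (m : ℕ) {y : E} (hy : y ∈ U) :
    HasFDerivAt (pws a m) (∑' v, fderiv ℂ (fun w => a v w ^ (m + 2)) y) y ∧
      (Summable fun v => fderiv ℂ (fun w => a v w ^ (m + 2)) y) ∧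
      Summable fun v => a v y ^ (m + 2) := by
  obtain ⟨r, hr, hball⟩ := Metric.isOpen_iff.1 hU y hy
  have hb0 : ∀ v, 0 ≤ b v := fun v => (sq_nonneg _).trans (bd v y hy)
  have h1 := tsum_hol (f := fun v w => a v w ^ (m + 2)) hr (hb.mul_left ((1 + ∑' v, b v) ^ m))
    (fun v => ((hol v).mono hball).pow _) fun v w hw => pw_bd hb hb0 (bd v w (hball hw)) m
  exact ⟨h1.1, h1.2, Summable.of_norm_bounded (hb.mul_left ((1 + ∑' v, b v) ^ m))
    fun v => pw_bd hb hb0 (bd v y hy) m⟩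

theorem pws_hol (hU : IsOpen U) (hb : Summable b) (hol : ∀ v, DifferentiableOn ℂ (a v) U)
    (bd : ∀ v, ∀ w ∈ U, ‖a v w‖ ^ 2 ≤ b v) (m : ℕ) : DifferentiableOn ℂ (pws a m) U :=
  fun _ hy => (pws_has hU hb hol bd m hy).1.differentiableAt.differentiableWithinAt

/-- the key step -/
theorem pws_key (hU : IsOpen U) (hb : Summable b) (hol : ∀ v, DifferentiableOn ℂ (a v) U)
    (bd : ∀ v, ∀ w ∈ U, ‖a v w‖ ^ 2 ≤ b v) {y : E} (hy : y ∈ U) {v0 : G} (h0 : a v0 y ≠ 0)
    (hg : ∀ v, a v y = a v0 y → fderiv ℂ (a v) y = fderiv ℂ (a v0) y)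
    (φ : (E →L[ℂ] ℂ) →L[ℂ] ℂ) (l : ℂ)
    (h : ∀ m : ℕ, φ (fderiv ℂ (pws a m) y) = ((m + 2 : ℕ) : ℂ) * l * pws a m y) :
    φ (fderiv ℂ (a v0) y) = l * a v0 y := by
  have ha : Tendsto (fun v => a v y) cofinite (𝓝 0) := by
    rw [tendsto_zero_iff_norm_tendsto_zero]
    have h1 := (Real.continuous_sqrt.tendsto 0).comp hb.tendsto_cofinite_zero
    rw [Real.sqrt_zero] at h1
    refine squeeze_zero (fun _ => norm_nonneg _) (fun v => ?_) h1
    exact Real.le_sqrt_of_sq_le (bd v y hy)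
  have h1 := vdm (c := fun v => a v y * (φ (fderiv ℂ (a v) y) - l * a v y)) ha (fun m => ?_) h0
    (fun v hv => by simp only [hv, hg v hv])
  · exact sub_eq_zero.1 ((mul_eq_zero.1 h1).resolve_left h0)
  · obtain ⟨h1, h2, h3⟩ := pws_has hU hb hol bd m hy
    have h4 := (h2.hasSum.mapL φ).mul_left (((m + 2 : ℕ) : ℂ))⁻¹
    rw [← h1.fderiv, h m] at h4
    have h5 := h4.sub (h3.hasSum.mul_left l)
    have hm : ((m + 2 : ℕ) : ℂ) ≠ 0 := Nat.cast_ne_zero.2 (by omega)
    have h6 : (((m + 2 : ℕ) : ℂ))⁻¹ * (((m + 2 : ℕ) : ℂ) * l * pws a m y) -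
        l * ∑' v, a v y ^ (m + 2) = 0 := by
      unfold pws
      field_simp
      ring
    rw [h6] at h5
    have h9 : (fun v => a v y ^ m * (a v y * (φ (fderiv ℂ (a v) y) - l * a v y))) = fun v =>
        (((m + 2 : ℕ) : ℂ))⁻¹ * φ (fderiv ℂ (fun w => a v w ^ (m + 2)) y) -
          l * a v y ^ (m + 2) := by
      funext v
      rw [fderiv_pw ((hol v).differentiableAt (hU.mem_nhds hy)) (m + 1), map_smul, smul_eq_mul]
      field_simp
      ring
    rw [h9]
    exact h5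

end one

/-- a point that is generic for countably many holomorphic functions -/
theorem generic [FiniteDimensional ℂ E] {ι : Type*} [Countable ι] {f : ι → E → ℂ} {U O : Set E}
    (hU : IsOpen U) (hc : IsPreconnected U) (hf : ∀ i, DifferentiableOn ℂ (f i) U)
    (hO : IsOpen O) (hne : O.Nonempty) (hOU : O ⊆ U) :
    ∃ y ∈ O, ∀ i, f i y = 0 → ∀ w ∈ U, f i w = 0 := by
  classical
  have : CompleteSpace E := FiniteDimensional.complete ℂ E
  obtain ⟨y1, hy1⟩ := hne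
  obtain ⟨ρ, hρ, hball⟩ := Metric.nhds_basis_closedBall.mem_iff.1 (hO.mem_nhds hy1)
  by_contra hcon
  push Not at hcon
  let Z : ι → Set E := fun i =>
    if ∃ w ∈ U, f i w ≠ 0 then closedBall y1 ρ ∩ f i ⁻¹' {0} else ∅
  have hZ : ∀ i, IsMeagre (Z i) := by
    intro i
    simp only [Z]
    split_ifs with hi
    · have hcl : IsClosed (closedBall y1 ρ ∩ f i ⁻¹' {0}) :=
        (((hf i).continuousOn).mono (hball.trans hOU)).preimage_isClosed_of_isClosed
          isClosed_closedBall isClosed_singleton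
      refine IsNowhereDense.isMeagre (hcl.isNowhereDense_iff.2 ?_)
      rw [eq_empty_iff_forall_notMem]
      intro x hx
      have h1 := mem_interior_iff_mem_nhds.1 hx
      have hxU : x ∈ U := hOU (hball (mem_of_mem_nhds h1).1)
      have h2 := SCV.dense_ne_zero hU hc (SCV.analyticOnNhd_of_differentiableOn hU (hf i)) hi x hxU
      obtain ⟨z, hz1, hz2⟩ := (h2.and_eventually h1).exists
      exact hz1.2 hz2.2
    · exact IsMeagre.empty
  refine not_isMeagre_of_isOpen (isOpen_ball (x := y1) (ε := ρ)) ⟨y1, mem_ball_self hρ⟩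
    ((isMeagre_iUnion hZ).mono fun y hy => ?_)
  obtain ⟨i, hi, hi'⟩ := hcon y (hball (ball_subset_closedBall hy))
  refine mem_iUnion.2 ⟨i, ?_⟩
  simp only [Z]
  rw [if_pos hi']
  exact ⟨ball_subset_closedBall hy, hi⟩

/-- linear algebra: `p` independent vectors in the span of a family can be found in the family -/
theorem pick {V : Type*} [AddCommGroup V] [Module ℂ V] [FiniteDimensional ℂ V] {J : Type*}
    (u : J → V) (S : Set J) {p : ℕ} {w : Fin p → V} (hw : LinearIndependent ℂ w)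
    (hm : ∀ k, w k ∈ Submodule.span ℂ (u '' S)) :
    ∃ j : Fin p → J, (∀ t, j t ∈ S) ∧ LinearIndependent ℂ fun t => u (j t) := by
  obtain ⟨f, hf, -, hli⟩ := Submodule.exists_fun_fin_finrank_span_eq ℂ (u '' S)
  have hle : p ≤ Module.finrank ℂ (Submodule.span ℂ (u '' S)) := by
    have h1 : LinearIndependent ℂ fun k => (⟨w k, hm k⟩ : Submodule.span ℂ (u '' S)) :=
      LinearIndependent.of_comp (Submodule.span ℂ (u '' S)).subtype hw
    simpa using h1.fintype_card_le_finrank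
  choose j hj hj' using hf
  refine ⟨fun t => j (Fin.castLE hle t), fun t => hj _, ?_⟩
  have h2 := hli.comp (Fin.castLE hle) (Fin.castLE_injective hle)
  have h3 : (fun t => u (j (Fin.castLE hle t))) = f ∘ Fin.castLE hle := funext fun t => hj' _
  rw [h3]
  exact h2

/-- normalised logarithmic differential of a power sum -/
def lam {G : Type*} (a : G → E → ℂ) (m : ℕ) (y : E) : E →L[ℂ] ℂ :=
  (((m + 2 : ℕ) : ℂ) * pws a m y)⁻¹ • fderiv ℂ (pws a m) y

/-- **power sums separate** -/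
theorem flat [FiniteDimensional ℂ E] {G : Type*} [Countable G] {p : ℕ}
    {a : Fin (p + 1) → G → E → ℂ} {U : Set E} (hU : IsOpen U) (hc : IsPreconnected U)
    {b : Fin (p + 1) → G → ℝ} (hb : ∀ k, Summable (b k))
    (hol : ∀ k v, DifferentiableOn ℂ (a k v) U) (bd : ∀ k v, ∀ w ∈ U, ‖a k v w‖ ^ 2 ≤ b k v)
    {y0 : E} (hy0 : y0 ∈ U) {v0 : G} (h0 : a 0 v0 y0 ≠ 0)
    (hl : LinearIndependent ℂ fun k : Fin p =>
      a 0 v0 y0 • fderiv ℂ (a k.succ v0) y0 - a k.succ v0 y0 • fderiv ℂ (a 0 v0) y0) :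
    ∃ y ∈ U, ∃ j : Fin (p + 1) → Fin (p + 1) × ℕ, (∀ t, pws (a (j t).1) (j t).2 y ≠ 0) ∧
      LinearIndependent ℂ fun t : Fin p =>
        lam (a (j t.succ).1) (j t.succ).2 y - lam (a (j 0).1) (j 0).2 y := by
  classical
  -- the open set where independence persists
  let Wr : E → Fin p → (E →L[ℂ] ℂ) := fun y k =>
    a 0 v0 y • fderiv ℂ (a k.succ v0) y - a k.succ v0 y • fderiv ℂ (a 0 v0) y
  have han : ∀ k, AnalyticAt ℂ (a k v0) y0 := fun k =>
    SCV.analyticOnNhd_of_differentiableOn hU (hol k v0) y0 hy0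
  have hW : ContinuousAt Wr y0 := by
    refine continuousAt_pi.2 fun k => ?_
    exact ((han 0).continuousAt.smul (han _).fderiv.continuousAt).sub
      ((han _).continuousAt.smul (han 0).fderiv.continuousAt)
  have hev : ∀ᶠ y in 𝓝 y0, LinearIndependent ℂ (Wr y) ∧ y ∈ U :=
    (hW.eventually (LinearIndependent.eventually hl)).and (hU.mem_nhds hy0)
  obtain ⟨O, hO1, hO, hOy⟩ := _root_.mem_nhds_iff.1 hev
  -- a generic point
  let f : (Fin (p + 1) × G) ⊕ Fin (p + 1) ⊕ (Fin (p + 1) × ℕ) → E → ℂ := fun i w =>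
    match i with
    | .inl i => a i.1 i.2 w - a i.1 v0 w
    | .inr (.inl k) => a k v0 w
    | .inr (.inr i) => pws (a i.1) i.2 w
  have hf : ∀ i, DifferentiableOn ℂ (f i) U := by
    rintro (i | k | i)
    · exact (hol _ _).sub (hol _ _)
    · exact hol _ _
    · exact pws_hol hU (hb _) (hol _) (bd _) _
  obtain ⟨y, hyO, hy⟩ := generic hU hc hf hO ⟨y0, hOy⟩ fun y hy => (hO1 hy).2
  have hyU : y ∈ U := (hO1 hyO).2
  have hli : LinearIndependent ℂ (Wr y) := (hO1 hyO).1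
  have hz : ∀ {g : E → ℂ} {x : E}, x ∈ U → (∀ w ∈ U, g w = 0) → fderiv ℂ g x = 0 := by
    intro g x hx hg
    have : g =ᶠ[𝓝 x] fun _ => 0 := by
      filter_upwards [hU.mem_nhds hx] with w hw using hg w hw
    rw [this.fderiv_eq]
    simp
  have hne : ∀ k, a k v0 y ≠ 0 := by
    intro k hk
    have h1 : ∀ w ∈ U, a k v0 w = 0 := hy (.inr (.inl k)) hk
    induction k using Fin.cases with
    | zero => exact h0 (h1 y0 hy0)
    | succ k =>
      refine hl.ne_zero k ?_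
      ext ξ
      simp [h1 y0 hy0, hz hy0 h1]
  have hg : ∀ k v, a k v y = a k v0 y → fderiv ℂ (a k v) y = fderiv ℂ (a k v0) y := by
    intro k v hv
    have h1 : ∀ w ∈ U, a k v w - a k v0 w = 0 := hy (.inl (k, v)) (sub_eq_zero.2 hv)
    refine Filter.EventuallyEq.fderiv_eq ?_
    filter_upwards [hU.mem_nhds hyU] with w hw using sub_eq_zero.1 (h1 w hw)
  have key : ∀ k (φ : (E →L[ℂ] ℂ) →L[ℂ] ℂ) (l : ℂ),
      (∀ m, pws (a k) m y ≠ 0 → φ (lam (a k) m y) = l) →
      φ (fderiv ℂ (a k v0) y) = l * a k v0 y := by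
    intro k φ l h
    refine pws_key hU (hb k) (hol k) (bd k) hyU (hne k) (hg k) φ l fun m => ?_
    by_cases hm : pws (a k) m y = 0
    · have h1 : ∀ w ∈ U, pws (a k) m w = 0 := hy (.inr (.inr (k, m))) hm
      rw [hz hyU h1, hm]
      simp
    · have h1 := h m hm
      have h2 : ((m + 2 : ℕ) : ℂ) ≠ 0 := Nat.cast_ne_zero.2 (by omega)
      unfold lam at h1
      rw [map_smul, smul_eq_mul] at h1
      rw [← h1]
      field_simp
  obtain ⟨m0, hm0⟩ : ∃ m, pws (a 0) m y ≠ 0 := by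
    by_contra hcon
    push Not at hcon
    have h1 := key 0 0 1 fun m hm => absurd (hcon m) hm
    exact hne 0 (by simpa using h1.symm)
  let S : Set (Fin (p + 1) × ℕ) := {j | pws (a j.1) j.2 y ≠ 0}
  let u : Fin (p + 1) × ℕ → (E →L[ℂ] ℂ) := fun j => lam (a j.1) j.2 y - lam (a 0) m0 y
  have hmem : ∀ k, fderiv ℂ (a k v0) y - a k v0 y • lam (a 0) m0 y ∈
      Submodule.span ℂ (u '' S) := by
    intro k
    by_contra hcon
    obtain ⟨φ, hφ, hφ0⟩ := Submodule.exists_dual_map_eq_bot_of_notMem hcon inferInstance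
    have h1 := key k (LinearMap.toContinuousLinearMap φ) (φ (lam (a 0) m0 y)) fun m hm => by
      have h2 : φ (u (k, m)) ∈ (Submodule.span ℂ (u '' S)).map φ :=
        Submodule.mem_map_of_mem (Submodule.subset_span ⟨(k, m), hm, rfl⟩)
      rw [hφ0, Submodule.mem_bot] at h2
      simp only [u, map_sub] at h2
      exact sub_eq_zero.1 h2
    apply hφ
    rw [map_sub, map_smul, smul_eq_mul]
    change φ _ = _ at h1
    rw [h1]
    ring
  obtain ⟨j, hj, hj'⟩ := pick u S hli fun k => by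
    have h1 := Submodule.sub_mem _ (Submodule.smul_mem _ (a 0 v0 y) (hmem k.succ))
      (Submodule.smul_mem _ (a k.succ v0 y) (hmem 0))
    convert h1 using 1
    simp only [Wr]
    module
  refine ⟨y, hyU, Fin.cons (0, m0) j, fun t => ?_, ?_⟩
  · induction t using Fin.cases with
    | zero => exact hm0
    | succ t => exact hj t
  · exact hj'

end

end Crest.Agent.X261.Hc
end

-- ▼ part X261/Hc/PoinB
section

/-!
# Row 261, POIN (helper17), part B: Poincaré series on a Galois cover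

`poin`: `p + 1` sections of the pull-back of `N` to the cover, with locally uniformly square
summable translates and independent ratios at one point, give `p + 1` sections of a power of `N`
on the base with independent ratios at one point.
-/

set_option autoImplicit false
set_option linter.unusedSectionVars false
set_option linter.dupNamespace false

open Set Filter Topology Metric

namespace Crest.Agent.X261.Hc

open Crest.Agent.R275.Geo Crest.Agent.R275.Core144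
open Crest.Agent.R275.OmT75 (dl dj dj_congr)
open Crest.Agent.R273.UCov_914
open Crest.Agent.R266

noncomputable section

variable {n : ℕ} {X : Type} [TopologicalSpace X] {A : Atl n X} {G : Type} [Group G]

/-- a section on the cover read in the chart `i` on the sheet `v` -/
def rd (D : MonD A G) (s : (D.atl G).ι → D.cov G → ℂ) (i : A.ι) (v : G) (z : Cn n) : ℂ :=
  s (i, v) (D.pt i v ((A.e i).symm z))

/-- the translates are locally uniformly square summable -/
def SumB (D : MonD A G) (s : (D.atl G).ι → D.cov G → ℂ) : Prop :=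
  ∀ i, ∀ z ∈ (A.e i).target, ∃ r > 0, ∃ b : G → ℝ, Summable b ∧
    ∀ v, ∀ w ∈ ball z r, ‖rd D s i v w‖ ^ 2 ≤ b v

open Classical in
/-- the Poincaré series of `s ^ (m + 2)` -/
def PS (D : MonD A G) (s : (D.atl G).ι → D.cov G → ℂ) (m : ℕ) : A.ι → X → ℂ := fun i x =>
  if x ∈ (A.e i).source then ∑' v, s (i, v) (D.pt i v x) ^ (m + 2) else 0

variable {D : MonD A G} {N : LB A} {s : (D.atl G).ι → D.cov G → ℂ}

theorem rd_hol (hs : IsHS (D.pullLB G N) univ s) (i : A.ι) (v : G) :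
    DifferentiableOn ℂ (rd D s i v) (A.e i).target := by
  have := hs.hol (i, v)
  unfold HolAt at this
  rwa [preimage_univ, inter_univ] at this

theorem PS_symm (m : ℕ) {i : A.ι} {z : Cn n} (hz : z ∈ (A.e i).target) :
    PS D s m i ((A.e i).symm z) = pws (rd D s i) m z := if_pos ((A.e i).map_target hz)

theorem pow_g' (L : LB A) (d : ℕ) (i j : A.ι) (x : X) : (L ^ d).g i j x = L.g i j x ^ d := by
  induction d with
  | zero => simp
  | succ m ih => rw [pow_succ, LB.mul_g, ih, pow_succ]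

theorem isHS_PS (hs : IsHS (D.pullLB G N) univ s) (hb : SumB D s) (m : ℕ) :
    IsHS (N ^ (m + 2)) univ (PS D s m) where
  hol i := by
    intro z hz
    obtain ⟨r, hr, b, hb, hbd⟩ := hb i z hz.1
    have hU : IsOpen (ball z r ∩ (A.e i).target) := isOpen_ball.inter (A.e i).open_target
    have h1 := (pws_has hU hb (fun v => (rd_hol hs i v).mono inter_subset_right)
      (fun v w hw => hbd v w hw.1) m ⟨mem_ball_self hr, hz.1⟩).1.differentiableAt
    refine (h1.congr_of_eventuallyEq ?_).differentiableWithinAt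
    filter_upwards [(A.e i).open_target.mem_nhds hz.1] with w hw using PS_symm m hw
  off i x hx := if_neg hx
  tr i j x hx _ := by
    unfold PS
    rw [if_pos hx.1, if_pos hx.2, pow_g', ← tsum_mul_left]
    have h1 : ∀ v : G, s (i, v) (D.pt i v x) =
        N.g i j x * s (j, D.c i j x • v) (D.pt j (D.c i j x • v) x) := by
      intro v
      have h2 : D.pt i v x ∈ ((D.atl G).e (i, v)).source := D.pt_mem_source (p := (i, v)) hx.1
      have h3 : D.pt i v x ∈ ((D.atl G).e (j, D.c i j x • v)).source := by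
        rw [D.pt_eq v hx.1 hx.2]
        exact D.pt_mem_source (p := (j, D.c i j x • v)) hx.2
      have h4 := hs.tr (i, v) (j, D.c i j x • v) (D.pt i v x) ⟨h2, h3⟩ (mem_univ _)
      rw [D.pullLB_g _ ⟨h2, h3⟩] at h4
      rw [h4, ← D.pt_eq v hx.1 hx.2]
      rfl
    simp only [h1, mul_pow]
    exact Equiv.tsum_eq (MulAction.toPerm (D.c i j x))
      fun v => N.g i j x ^ (m + 2) * s (j, v) (D.pt j v x) ^ (m + 2)

theorem isHS_pw {L : LB A} {t : A.ι → X → ℂ} (ht : IsHS L univ t) (e : ℕ) :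
    IsHS (L ^ (e + 1)) univ fun i x => t i x ^ (e + 1) where
  hol i := (ht.hol i).pow _
  off i x hx := by rw [ht.off i x hx, zero_pow (Nat.succ_ne_zero e)]
  tr i j x hx hxU := by rw [ht.tr i j x hx hxU, pow_g', mul_pow]

/-- the coordinates of a covector -/
def cov : (Cn n →L[ℂ] ℂ) →ₗ[ℂ] (Fin n → ℂ) where
  toFun L a := L (EuclideanSpace.single a 1)
  map_add' _ _ := rfl
  map_smul' _ _ := rfl

theorem cov_ker : LinearMap.ker (cov (n := n)) = ⊥ := by
  rw [LinearMap.ker_eq_bot']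
  intro L hL
  apply ContinuousLinearMap.coe_injective
  refine (EuclideanSpace.basisFun (Fin n) ℂ).toBasis.ext fun a => ?_
  have h1 : L (EuclideanSpace.single a 1) = 0 := congrFun hL a
  simpa using h1

theorem dj_eq {f : Cn n → ℂ} {z : Cn n} (hf : DifferentiableAt ℂ f z) (a : Fin n) :
    dj a f z = cov (fderiv ℂ f z) a := by
  have h2 : fderiv ℝ f z = (fderiv ℂ f z).restrictScalars ℝ := hf.fderiv_restrictScalars ℝ
  have h3 : (EuclideanSpace.single a Complex.I : Cn n) =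
      Complex.I • EuclideanSpace.single a (1 : ℂ) := by
    ext b
    by_cases hb : b = a <;> simp [hb]
  unfold dj
  rw [h2, h3]
  change _ = fderiv ℂ f z (EuclideanSpace.single a 1)
  simp only [ContinuousLinearMap.coe_restrictScalars', map_smul, smul_eq_mul]
  linear_combination (-(1 / 2 : ℂ) * (fderiv ℂ f z) (EuclideanSpace.single a 1)) * Complex.I_mul_I

/-- **Poincaré series** -/
theorem poin [Countable G] {p : ℕ} (s : Fin (p + 1) → (D.atl G).ι → D.cov G → ℂ)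
    (hs : ∀ k, IsHS (D.pullLB G N) univ (s k)) (hb : ∀ k, SumB D (s k))
    {q : (D.atl G).ι} {y : D.cov G} (hy : y ∈ ((D.atl G).e q).source) (h0 : s 0 q y ≠ 0)
    (hl : LinearIndependent ℂ fun (k : Fin p) (a : Fin n) =>
      s 0 q y * dl (D.atl G) q a (s k.succ q) y - s k.succ q y * dl (D.atl G) q a (s 0 q) y) :
    ∃ (m : ℕ) (σ : Fin (p + 1) → A.ι → X → ℂ), 0 < m ∧ (∀ k, IsHS (N ^ m) univ (σ k)) ∧
      ∃ i, ∃ x ∈ (A.e i).source, σ 0 i x ≠ 0 ∧ LinearIndependent ℂ fun (k : Fin p) (a : Fin n) =>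
        σ 0 i x * dl A i a (σ k.succ i) x - σ k.succ i x * dl A i a (σ 0 i) x := by
  classical
  obtain ⟨i, v0⟩ := q
  set y0 : Cn n := A.e i (D.pr y) with hy0
  have hy0t : y0 ∈ (A.e i).target := (A.e i).map_source hy.1
  have hval : ∀ k, s k (i, v0) y = rd D (s k) i v0 y0 := by
    intro k
    unfold rd
    rw [hy0, (A.e i).left_inv hy.1, D.pt_of_mem hy]
  have hder : ∀ k a, dl (D.atl G) (i, v0) a (s k (i, v0)) y =
      cov (fderiv ℂ (rd D (s k) i v0) y0) a := fun k a =>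
    dj_eq ((rd_hol (hs k) i v0).differentiableAt ((A.e i).open_target.mem_nhds hy0t)) a
  choose r hr b hbs hbd using fun k => hb k i y0 hy0t
  obtain ⟨ρ, hρ, hball⟩ : ∃ ρ > 0, ball y0 ρ ⊆ (A.e i).target ∩ ⋂ k, ball y0 (r k) :=
    Metric.mem_nhds_iff.1 (inter_mem ((A.e i).open_target.mem_nhds hy0t)
      (iInter_mem.2 fun k => ball_mem_nhds _ (hr k)))
  have hl' : LinearIndependent ℂ fun k : Fin p =>
      rd D (s 0) i v0 y0 • fderiv ℂ (rd D (s k.succ) i v0) y0 -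
        rd D (s k.succ) i v0 y0 • fderiv ℂ (rd D (s 0) i v0) y0 := by
    refine LinearIndependent.of_comp cov ?_
    convert hl using 1
    funext k a
    simp only [Function.comp_apply, map_sub, map_smul, Pi.sub_apply, Pi.smul_apply, smul_eq_mul,
      hval, hder]
  have hol : ∀ k v, DifferentiableOn ℂ (rd D (s k) i v) (ball y0 ρ) := fun k v =>
    (rd_hol (hs k) i v).mono fun w hw => (hball hw).1
  have bd : ∀ k v, ∀ w ∈ ball y0 ρ, ‖rd D (s k) i v w‖ ^ 2 ≤ b k v := fun k v w hw =>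
    hbd k v w (mem_iInter.1 (hball hw).2 k)
  obtain ⟨z, hz, j, hj, hli⟩ := flat (a := fun k => rd D (s k) i) isOpen_ball
    (convex_ball y0 ρ).isPreconnected hbs hol bd (mem_ball_self hρ) (by rw [← hval]; exact h0) hl'
  have hzt : z ∈ (A.e i).target := (hball hz).1
  set m : ℕ := ∏ t, ((j t).2 + 2) with hm
  have hmpos : 0 < m := Finset.prod_pos fun t _ => by omega
  have hdiv : ∀ t, ∃ e : ℕ, m = ((j t).2 + 2) * (e + 1) := by
    intro t
    obtain ⟨e, he⟩ : ((j t).2 + 2) ∣ m := Finset.dvd_prod_of_mem _ (Finset.mem_univ t)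
    refine ⟨e - 1, ?_⟩
    have : e ≠ 0 := by
      rintro rfl
      omega
    rw [he, Nat.sub_add_cancel (Nat.one_le_iff_ne_zero.2 this)]
  choose e he using hdiv
  let σ : Fin (p + 1) → A.ι → X → ℂ := fun t i x => PS D (s (j t).1) (j t).2 i x ^ (e t + 1)
  have hσv : ∀ t, σ t i ((A.e i).symm z) = pws (rd D (s (j t).1) i) (j t).2 z ^ (e t + 1) := by
    intro t
    simp only [σ]
    rw [PS_symm _ hzt]
  have hσne : ∀ t, σ t i ((A.e i).symm z) ≠ 0 := fun t => by
    rw [hσv]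
    exact pow_ne_zero _ (hj t)
  have hσd : ∀ t a, dl A i a (σ t i) ((A.e i).symm z) =
      m * σ t i ((A.e i).symm z) * cov (lam (rd D (s (j t).1) i) (j t).2 z) a := by
    intro t a
    have hd : DifferentiableAt ℂ (pws (rd D (s (j t).1) i) (j t).2) z :=
      (pws_has isOpen_ball (hbs _) (hol _) (bd _) _ hz).1.differentiableAt
    have hev : (fun w => σ t i ((A.e i).symm w)) =ᶠ[𝓝 z]
        fun w => pws (rd D (s (j t).1) i) (j t).2 w ^ (e t + 1) := by
      filter_upwards [(A.e i).open_target.mem_nhds hzt] with w hw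
      simp only [σ]
      rw [PS_symm _ hw]
    unfold dl
    rw [(A.e i).right_inv hzt, dj_congr hev, dj_eq (hd.fun_pow _), fderiv_pw hd, hσv]
    unfold lam
    have h1 := hj t
    have h2 : (((j t).2 + 2 : ℕ) : ℂ) ≠ 0 := Nat.cast_ne_zero.2 (by omega)
    have h3 : (m : ℂ) = (((j t).2 + 2 : ℕ) : ℂ) * ((e t + 1 : ℕ) : ℂ) := by
      rw [← Nat.cast_mul, ← he t]
    simp only [map_smul, Pi.smul_apply, smul_eq_mul]
    rw [h3]
    field_simp
    ring
  refine ⟨m, σ, hmpos, fun t => ?_, i, (A.e i).symm z, (A.e i).map_target hzt, hσne 0, ?_⟩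
  · have h1 := isHS_pw (isHS_PS (hs (j t).1) (hb (j t).1) (j t).2) (e t)
    rwa [← pow_mul, ← he t] at h1
  · have hmc : (m : ℂ) ≠ 0 := Nat.cast_ne_zero.2 hmpos.ne'
    have h1 := (hli.map' cov cov_ker).units_smul fun t : Fin p =>
      Units.mk0 (m * σ 0 i ((A.e i).symm z) * σ t.succ i ((A.e i).symm z))
        (mul_ne_zero (mul_ne_zero hmc (hσne 0)) (hσne _))
    refine (congrArg (fun v : Fin p → Fin n → ℂ => LinearIndependent ℂ v) ?_).mpr h1
    funext t a
    simp only [hσd, Pi.smul_apply', Function.comp_apply, map_sub, Units.smul_mk0, Pi.smul_apply,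
      Pi.sub_apply, smul_eq_mul]
    ring

/-- the form used in `Top.JetStmt` -/
theorem poin_wdg [Countable G] {p : ℕ} {L : LB A} {k : ℕ} (hk : 0 < k)
    (s : Fin (p + 1) → (D.atl G).ι → D.cov G → ℂ)
    (hs : ∀ t, IsHS (D.pullLB G (L ^ k)) univ (s t)) (hb : ∀ t, SumB D (s t))
    {q : (D.atl G).ι} {y : D.cov G} (hy : y ∈ ((D.atl G).e q).source) (h0 : s 0 q y ≠ 0)
    (hl : LinearIndependent ℂ fun (t : Fin p) (a : Fin n) =>
      s 0 q y * dl (D.atl G) q a (s t.succ q) y - s t.succ q y * dl (D.atl G) q a (s 0 q) y) :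
    ∃ (m : ℕ) (σ : Fin (p + 1) → A.ι → X → ℂ), 0 < m ∧ (∀ t, IsHS (L ^ m) univ (σ t)) ∧
      ∃ i, ∃ x ∈ (A.e i).source, (Top.wdg fun (t : Fin p) (a : Fin n) =>
        σ 0 i x * dl A i a (σ t.succ i) x - σ t.succ i x * dl A i a (σ 0 i) x) ≠ 0 := by
  obtain ⟨m, σ, hm, hσ, i, x, hx, -, h⟩ := poin s hs hb hy h0 hl
  refine ⟨k * m, σ, Nat.mul_pos hk hm, fun t => ?_, i, x, hx, Plk.twdg_ne_zero_iff.2 h⟩
  rw [pow_mul]
  exact hσ t

end

end Crest.Agent.X261.Hc
end

-- ▼ part X261/Hc/PoinC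
section

/-!
# Row 261, POIN (helper17), part C: `L²` sections on the cover have summable translates

* `div_bd`       : sup bound for `f` from an `L²` bound of `f ε`, `ε` holomorphic and not flat;
* `sumB_of_lint` : `SumB` from a finite integral on the cover;
* `sumB_of_rr`, `sumB_fol` : the same for `L²` polyvector fields `V = s ε`.
-/

set_option autoImplicit false
set_option linter.unusedSectionVars false
set_option linter.dupNamespace false

open Set Filter Topology Metric MeasureTheory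
open scoped ENNReal Matrix

namespace Crest.Agent.X261.Hc

open Crest.Agent.R275.Geo Crest.Agent.R275.Core144
open Crest.Agent.R273.UCov_914 Crest.Agent.R273.Defs_333 Crest.Agent.R273.Kah_333
open Crest.Agent.R273.Vm_333
open Crest.Agent.R273.Fock_243 (FI)
open Crest.Agent.R273.BKNa_37 (IsV)
open Crest.Agent.R273.Berezin_505 (Sb Sbi)
open Crest.Agent.R273.RMan4_798 (pullKah)
open Crest.Agent.T223.Hm
open Crest.Agent.X261.Jet.Fr
open Crest.Agent.R271.Montel297

noncomputable section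

variable {n : ℕ}

/-- division estimate -/
theorem div_bd {T : Set (Fin n → ℂ)} (hT : IsOpen T) {ε : (Fin n → ℂ) → ℂ}
    (hε : DifferentiableOn ℂ ε T) {z0 : Fin n → ℂ} (hz : z0 ∈ T) (hne : ∃ᶠ w in 𝓝 z0, ε w ≠ 0) :
    ∃ r > 0, ∃ C : Set (Fin n → ℂ), IsCompact C ∧ C ⊆ T ∧ ∃ c : ℝ, ∀ f : (Fin n → ℂ) → ℂ,
      DifferentiableOn ℂ f T → ∀ I : ℝ≥0∞, I ≠ ⊤ → ∫⁻ y in C, ‖f y * ε y‖ₑ ^ 2 ≤ I →
        ∀ w ∈ ball z0 r, ‖f w‖ ^ 2 ≤ c * I.toReal := by
  obtain ⟨R4, hR4, hC⟩ := Metric.nhds_basis_closedBall.mem_iff.1 (hT.mem_nhds hz)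
  set R := R4 / 4 with hR
  have hR0 : 0 < R := by positivity
  obtain ⟨w1, hw1, hw1'⟩ := (hne.and_eventually (ball_mem_nhds z0 hR0)).exists
  set u := w1 - z0 with hu
  have hun : ‖u‖ < R := by rwa [dist_eq_norm] at hw1'
  have hin : ∀ w ∈ ball z0 R, ∀ t : ℂ, ‖t‖ ≤ 2 → w + t • u ∈ ball z0 (3 * R) := by
    intro w hw t ht
    rw [mem_ball, dist_eq_norm] at hw ⊢
    have h1 : w + t • u - z0 = (w - z0) + t • u := by abel
    have h2 : ‖t • u‖ ≤ 2 * R := by
      rw [norm_smul]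
      exact mul_le_mul ht hun.le (norm_nonneg _) (by norm_num)
    rw [h1]
    linarith [norm_add_le (w - z0) (t • u)]
  have h3T : ball z0 (3 * R) ⊆ T := fun w hw =>
    hC (ball_subset_closedBall (ball_subset_ball (by rw [hR]; linarith) hw))
  have hline : ∀ {f : (Fin n → ℂ) → ℂ}, DifferentiableOn ℂ f T → ∀ w ∈ ball z0 R,
      DifferentiableOn ℂ (fun t : ℂ => f (w + t • u)) (closedBall 0 2) := fun hf w hw =>
    hf.comp (f := fun t : ℂ => w + t • u) (by fun_prop) fun t ht =>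
      h3T (hin w hw t (mem_closedBall_zero_iff.1 ht))
  have hg : AnalyticOnNhd ℂ (fun t : ℂ => ε (z0 + t • u)) (ball 0 2) :=
    ((hline hε z0 (mem_ball_self hR0)).mono ball_subset_closedBall).analyticOnNhd isOpen_ball
  have h02 : (0 : ℂ) ∈ ball (0 : ℂ) 2 := mem_ball_self two_pos
  have hiso : ∀ᶠ t in 𝓝[≠] (0 : ℂ), ε (z0 + t • u) ≠ 0 := by
    refine (hg 0 h02).eventually_eq_zero_or_eventually_ne_zero.resolve_left fun h => hw1 ?_
    have h1 := hg.eqOn_zero_of_preconnected_of_eventuallyEq_zero (convex_ball _ _).isPreconnected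
      h02 h (show (1 : ℂ) ∈ ball (0 : ℂ) 2 by simp)
    simpa [hu] using h1
  obtain ⟨η, hη, hη'⟩ := Metric.eventually_nhds_iff.1 (eventually_nhdsWithin_iff.1 hiso)
  set δ := min (η / 2) 1 with hδ
  have hδ0 : 0 < δ := lt_min (half_pos hη) one_pos
  have hδ2 : δ ≤ 2 := (min_le_right _ _).trans one_le_two
  have hsph : ∀ t ∈ sphere (0 : ℂ) δ, ‖t‖ = δ := fun t ht => mem_sphere_zero_iff_norm.1 ht
  obtain ⟨m, hm0, hm⟩ := (isCompact_sphere (0 : ℂ) δ).exists_forall_le'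
    (f := fun t => ‖ε (z0 + t • u)‖) (a := 0)
    ((hline hε z0 (mem_ball_self hR0)).continuousOn.norm.mono fun t ht =>
      mem_closedBall_zero_iff.2 ((hsph t ht).trans_le hδ2))
    fun t ht => norm_pos_iff.2 (hη' (by
      rw [dist_zero_right, hsph t ht]
      exact (min_le_left _ _).trans_lt (half_lt_self hη)) fun h => by
        have h1 := hsph t ht
        rw [mem_singleton_iff.1 h, norm_zero] at h1
        exact hδ0.ne h1)
  have hev : ∀ᶠ w in 𝓝 z0, ∀ t ∈ sphere (0 : ℂ) δ, m / 2 < ‖ε (w + t • u)‖ := by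
    refine (isCompact_sphere (0 : ℂ) δ).eventually_forall_of_forall_eventually
      (P := fun w t => m / 2 < ‖ε (w + t • u)‖) fun t ht => ?_
    have h1 : ContinuousAt ε (z0 + t • u) := hε.continuousOn.continuousAt
      (hT.mem_nhds (h3T (hin z0 (mem_ball_self hR0) t ((hsph t ht).trans_le hδ2))))
    have h2 : ContinuousAt (fun q : (Fin n → ℂ) × ℂ => ‖ε (q.1 + q.2 • u)‖) (z0, t) :=
      (ContinuousAt.comp (f := fun q : (Fin n → ℂ) × ℂ => q.1 + q.2 • u) h1 (by fun_prop)).norm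
    exact h2.eventually (lt_mem_nhds ((half_lt_self hm0).trans_le (hm t ht)))
  obtain ⟨r, hr, hr'⟩ := Metric.eventually_nhds_iff.1 (hev.and (ball_mem_nhds z0 hR0))
  refine ⟨r, hr, closedBall z0 R4, isCompact_closedBall _ _, hC,
    ((volume (closedBall (0 : Fin n → ℂ) (R / 2))).toReal)⁻¹ / (m / 2) ^ 2,
    fun f hf I hI hfI w hw => ?_⟩
  obtain ⟨hw1, hw2⟩ := hr' (mem_ball.1 hw)
  have hb : ‖(fun t : ℂ => f (w + t • u)) 0‖ ≤ bd n (R / 2) I / (m / 2) := by
    refine Complex.norm_le_of_forall_mem_frontier_norm_le (U := ball (0 : ℂ) δ) isBounded_ball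
      (DifferentiableOn.diffContOnCl ((hline hf w hw2).mono
        (closure_ball_subset_closedBall.trans (closedBall_subset_closedBall hδ2))))
      (fun t ht => ?_) (subset_closure (mem_ball_self hδ0))
    rw [frontier_ball _ hδ0.ne'] at ht
    have h1 := hin w hw2 t ((hsph t ht).trans_le hδ2)
    have h2 : ‖f (w + t • u) * ε (w + t • u)‖ ≤ bd n (R / 2) I := by
      refine norm_le_bd (f := fun y => f y * ε y) (D := ball z0 R4) (half_pos hR0) isOpen_ball
        ((hf.mul hε).mono (ball_subset_closedBall.trans hC)) (closedBall_subset_ball' ?_) hI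
        ((lintegral_mono_set ball_subset_closedBall).trans hfI)
      rw [mem_ball] at h1
      rw [hR] at h1 ⊢
      linarith
    rw [le_div_iff₀ (half_pos hm0)]
    refine le_trans ?_ h2
    rw [norm_mul]
    exact mul_le_mul_of_nonneg_left (hw1 t ht).le (norm_nonneg _)
  simp only [zero_smul, add_zero] at hb
  refine (pow_le_pow_left₀ (norm_nonneg _) hb 2).trans (le_of_eq ?_)
  rw [div_pow, bd, Real.sq_sqrt ENNReal.toReal_nonneg, ENNReal.toReal_div]
  ring

theorem lint_chart {M : Type} [TopologicalSpace M] {B : Atl n M} [Countable B.ι]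
    [MeasurableSpace M] [BorelSpace M] (vol : HM (KB B)⁻¹) (i : B.ι) {F : M → ℝ≥0∞}
    (hF : AEMeasurable F (vm vol)) :
    ∫⁻ x in (B.e i).source, F x ∂(vm vol) = ∫⁻ z in Tz B i, rz vol i z * F (sz B i z) := by
  have h1 : AEMeasurable F ((nz vol i).map (sz B i)) := by
    rw [map_sz]
    exact hF.restrict
  rw [← map_sz, lintegral_map' h1 (aem_sz' vol i)]
  exact lintegral_nz vol i ((h1.comp_aemeasurable (aem_sz' vol i)).mono_ac (ac_nz vol i))

variable {X : Type} [TopologicalSpace X] {A : Atl n X} {G : Type} [Group G] {D : MonD A G}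
  [Countable A.ι] [Countable G] [MeasurableSpace (D.cov G)] [BorelSpace (D.cov G)]
  {N : LB A} {s : (D.atl G).ι → D.cov G → ℂ}

theorem hol_flat {M : Type} [TopologicalSpace M] {B : Atl n M} {i : B.ι} {f : M → ℂ}
    (hf : HolAt B i univ f) : DifferentiableOn ℂ (fun z => f (sz B i z)) (Tz B i) :=
  DifferentiableOn.comp (g := fun z => f ((B.e i).symm z))
    (f := fun z : Fin n → ℂ => (WithLp.toLp 2 z : Cn n)) hf
    (PiLp.continuousLinearEquiv 2 ℂ (fun _ : Fin n => ℂ)).symm.differentiable.differentiableOn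
    fun _ hz => ⟨hz, mem_univ _⟩

/-- **`SumB` from a finite integral** -/
theorem sumB_of_lint (vol : HM (KB (D.atl G))⁻¹) (hs : IsHS (D.pullLB G N) univ s)
    {F : D.cov G → ℝ≥0∞} (hF : AEMeasurable F (vm vol)) (hfin : ∫⁻ y, F y ∂(vm vol) ≠ ⊤)
    (H : ∀ i, ∀ x ∈ (A.e i).source, ∃ ε : X → ℂ, HolAt A i univ ε ∧ (∃ᶠ x' in 𝓝 x, ε x' ≠ 0) ∧
      ∀ C : Set X, IsCompact C → C ⊆ (A.e i).source → ∃ c : ℝ, ∀ x' ∈ C, ∀ v : G,
        ENNReal.ofReal (‖s (i, v) (D.pt i v x') * ε x'‖ ^ 2) ≤ ENNReal.ofReal c *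
          (ENNReal.ofReal (vol.w (i, v) (D.pt i v x')) * F (D.pt i v x'))) :
    SumB D s := by
  intro i z hz
  have hx : (A.e i).symm z ∈ (A.e i).source := (A.e i).map_target hz
  obtain ⟨ε, hε, hne, hC⟩ := H i _ hx
  have hz0 : cz A i ((A.e i).symm z) = WithLp.ofLp z := by
    unfold cz
    rw [(A.e i).right_inv hz]
  have hne' : ∃ᶠ w in 𝓝 (WithLp.ofLp z), ε (sz A i w) ≠ 0 := by
    rw [← hz0]
    refine Tendsto.frequently ((contOn_cz i).continuousAt ((A.e i).open_source.mem_nhds hx)) ?_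
    refine (hne.and_eventually ((A.e i).open_source.mem_nhds hx)).mono fun x' hx' => ?_
    rw [sz_cz hx'.2]
    exact hx'.1
  obtain ⟨r, hr, C, hCc, hCT, c, hc⟩ := div_bd (isOpen_Tz i) (hol_flat hε) (z0 := WithLp.ofLp z)
    hz hne'
  obtain ⟨c', hc'⟩ := hC (sz A i '' C) (hCc.image_of_continuousOn ((contOn_sz i).mono hCT))
    (by rintro _ ⟨y, hy, rfl⟩; exact sz_mem (hCT hy))
  obtain ⟨r', hr', hb⟩ := Metric.mem_nhds_iff.1
    ((PiLp.continuous_ofLp 2 (fun _ : Fin n => ℂ)).continuousAt.preimage_mem_nhds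
      (ball_mem_nhds (WithLp.ofLp z) hr))
  let I : G → ℝ≥0∞ := fun v => ENNReal.ofReal c' * ∫⁻ y in D.sheet i v, F y ∂(vm vol)
  have hI : ∑' v, I v ≠ ⊤ := by
    rw [ENNReal.tsum_mul_left, ← lintegral_iUnion (fun v => (D.isOpen_sheet i v).measurableSet)
      (fun v v' hv => Set.disjoint_left.2 fun y h1 h2 => hv (h1.2.symm.trans h2.2))]
    exact ENNReal.mul_ne_top ENNReal.ofReal_ne_top
      (ne_top_of_le_ne_top hfin (setLIntegral_le_lintegral _ _))
  refine ⟨r', hr', fun v => c * (I v).toReal, (ENNReal.summable_toReal hI).mul_left c,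
    fun v w hw => ?_⟩
  refine hc (fun y => s (i, v) (sz (D.atl G) (i, v) y)) (hol_flat (hs.hol (i, v))) (I v)
    (ne_top_of_le_ne_top hI (ENNReal.le_tsum v)) ?_ (WithLp.ofLp w) (hb hw)
  have h1 : ∫⁻ y in D.sheet i v, F y ∂(vm vol) = _ := lint_chart vol (i, v) hF
  simp only [I]
  rw [h1, ← lintegral_const_mul' _ _ ENNReal.ofReal_ne_top]
  refine le_trans (setLIntegral_mono' hCc.measurableSet fun y hy => ?_) (lintegral_mono_set hCT)
  have h2 := hc' _ ⟨y, hy, rfl⟩ v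
  rw [ENNReal.ofReal_pow (norm_nonneg _), ofReal_norm] at h2
  exact h2

/-- `SumB` for a section dominated by an `L²` polyvector field -/
theorem sumB_of_le (K0 : Kah A) {N' : LB (D.atl G)} (h : HM ((KB (D.atl G))⁻¹ * N'))
    (vol : HM (KB (D.atl G))⁻¹) {V : (D.atl G).ι → D.cov G → FI n → ℂ} (hV : IsV N' V)
    (hm : MemLp (rr h vol (pullKah D G K0) V) 2 (vm vol)) (w0 : A.ι → X → ℝ)
    (hw0 : ∀ i, ContinuousOn (w0 i) (A.e i).source) (hw1 : ∀ i, ∀ x ∈ (A.e i).source, 0 < w0 i x)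
    (hw : ∀ q, ∀ y ∈ ((D.atl G).e q).source, w0 q.1 (D.pr y) ≤ h.w q y)
    (ε : A.ι → X → FI n → ℂ) (hε : ∀ i S, HolAt A i univ fun x => ε i x S)
    (hne : ∀ i, ∀ x ∈ (A.e i).source, ∃ᶠ x' in 𝓝 x, ε i x' ≠ 0)
    (hs : IsHS (D.pullLB G N) univ s)
    (hVs : ∀ q, ∀ y ∈ ((D.atl G).e q).source, ∀ S, ‖s q y * ε q.1 (D.pr y) S‖ ≤ ‖V q y‖) :
    SumB D s := by
  refine sumB_of_lint vol hs (F := fun y => ‖rr h vol (pullKah D G K0) V y‖ₑ ^ 2)
    (hm.1.enorm.pow_const 2) ?_ fun i x hx => ?_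
  · have h1 := lintegral_rpow_enorm_lt_top_of_eLpNorm_lt_top two_ne_zero ENNReal.ofNat_ne_top hm.2
    simp only [ENNReal.toReal_ofNat, ENNReal.rpow_ofNat] at h1
    exact h1.ne
  obtain ⟨S, hS⟩ : ∃ S, ∃ᶠ x' in 𝓝 x, ε i x' S ≠ 0 := by
    by_contra hcon
    push Not at hcon
    refine hne i x hx ?_
    filter_upwards [eventually_all.2 hcon] with x' hx'
    exact not_not.2 (funext hx')
  refine ⟨fun x => ε i x S, hε i S, hS, fun C hC hCs => ?_⟩
  obtain ⟨c, -, hc⟩ := quad_lb (Q := fun x (y : FI n → ℂ) => w0 i x * (gq K0 i x y y).re) hC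
    ((((hw0 i).mono hCs).comp continuousOn_fst fun p hp => hp.1).mul
      (Complex.continuous_re.comp_continuousOn (contOn_gq K0 continuousOn_fst
        (fun p hp => hCs hp.1) continuousOn_snd continuousOn_snd)))
    (fun z y r => by rw [gq_smul]; ring)
    fun z hz y hy => mul_pos (hw1 i z (hCs hz)) (gq_pos K0 (hCs hz) hy)
  refine ⟨c ^ 2, fun x' hx' v => ?_⟩
  have hy : D.pt i v x' ∈ ((D.atl G).e (i, v)).source := D.pt_mem_source (p := (i, v)) (hCs hx')
  have hv0 := vol.pos (i, v) _ hy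
  rw [← ofReal_norm, ← ENNReal.ofReal_pow (norm_nonneg _), ← ENNReal.ofReal_mul hv0.le,
    ← ENNReal.ofReal_mul (sq_nonneg c), rr_eq h vol _ hV hy, norm_tV h vol _ hy,
    mul_inv_cancel_left₀ hv0.ne']
  refine ENNReal.ofReal_le_ofReal ?_
  have h1 : ‖s (i, v) (D.pt i v x') * ε i x' S‖ ≤ ‖V (i, v) (D.pt i v x')‖ := hVs _ _ hy S
  refine (pow_le_pow_left₀ (norm_nonneg _) h1 2).trans ((hc x' hx' _).trans ?_)
  refine mul_le_mul_of_nonneg_left ?_ (sq_nonneg c)
  exact mul_le_mul_of_nonneg_right (hw (i, v) _ hy) (gq_nonneg K0 (hCs hx') _)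


theorem fol_freq {p : ℕ} (F : Top.Fol D p) (i : A.ι) {x : X} (hx : x ∈ (A.e i).source) :
    ∃ᶠ x' in 𝓝 x, F.e i x' ≠ 0 := by
  intro hcon
  refine F.cop i x hx (fun _ => 0) (fun _ _ => analyticAt_const) (fun S =>
    ⟨fun _ => 0, fun _ _ => analyticAt_const, ?_⟩) rfl
  filter_upwards [hcon] with y hy
  rw [not_not.1 hy]
  simp

theorem fol_hol {p : ℕ} (F : Top.Fol D p) (i : A.ι) (S : FI n) :
    HolAt A i univ fun x => (Sbi ℂ n *ᵥ F.e i x) S := by
  simp only [Crest.Agent.R273.Berezin_505.Sbi_mulVec]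
  exact (F.tom.hol i _).const_mul _

theorem fol_freq' {p : ℕ} (F : Top.Fol D p) (i : A.ι) {x : X} (hx : x ∈ (A.e i).source) :
    ∃ᶠ x' in 𝓝 x, Sbi ℂ n *ᵥ F.e i x' ≠ 0 :=
  (fol_freq F i hx).mono fun x' hx' h0 => hx' (by
    have h1 := congrArg (fun u => Sb ℂ n *ᵥ u) h0
    simpa only [Matrix.mulVec_mulVec, Crest.Agent.R273.Berezin_505.Sb_mul_Sbi, Matrix.one_mulVec,
      Matrix.mulVec_zero] using h1)


end

end Crest.Agent.X261.Hc
end

-- ▼ part X261/Hc/PoinD
section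

/-!
# Row 261, POIN (helper17), part D: adapters for JET

* `sumB_prj` : `SumB` from `prj r V = s • Sbi e`, `V ∈ L²`;
* `wr_of_qt`, `wr` : independence of the Wronskians from the `1`-jets of `s_k / σ`;
* `jet_end`  : the conclusion of `Top.JetStmt`.
-/

set_option autoImplicit false
set_option linter.unusedSectionVars false
set_option linter.dupNamespace false

open Set Filter Topology Metric MeasureTheory
open scoped ENNReal Matrix

namespace Crest.Agent.X261.Hc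

open Crest.Agent.R275.Geo Crest.Agent.R275.Core144
open Crest.Agent.R275.OmT75 (dl dj)
open Crest.Agent.R273.UCov_914 Crest.Agent.R273.Defs_333 Crest.Agent.R273.Kah_333
open Crest.Agent.R273.Vm_333
open Crest.Agent.R273.Fock_243 (FI)
open Crest.Agent.R273.BKNa_37 (IsV)
open Crest.Agent.R273.Berezin_505 (Sb Sbi)
open Crest.Agent.R273.RMan4_798 (pullKah)
open Crest.Agent.X261.Jet.Fr Crest.Agent.X261.Jet.Tb

noncomputable section

variable {n p : ℕ}

section wr

variable {M : Type} [TopologicalSpace M] {B : Atl n M} {T : Set M} {L : LB B} [Countable B.ι]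
  {σ : B.ι → M → ℂ} {π : M → Cn p} {i : B.ι} {x : M}

theorem dl_mul_hol {f g : M → ℂ} (hT : IsOpen T) (hf : HolAt B i T f) (hg : HolAt B i T g)
    (hx : x ∈ T) (hi : x ∈ (B.e i).source) (a : Fin n) :
    dl B i a (fun y => f y * g y) x = f x * dl B i a g x + g x * dl B i a f x := by
  have h1 := hf.diffAt hT hi hx
  have h2 := hg.diffAt hT hi hx
  unfold dl
  rw [dj_eq (h1.fun_mul h2), dj_eq h1, dj_eq h2, fderiv_fun_mul h1 h2, (B.e i).left_inv hi]
  simp

theorem dl_sub_hol {f g : M → ℂ} (hT : IsOpen T) (hf : HolAt B i T f) (hg : HolAt B i T g)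
    (hx : x ∈ T) (hi : x ∈ (B.e i).source) (a : Fin n) :
    dl B i a (fun y => f y - g y) x = dl B i a f x - dl B i a g x := by
  have h1 := hf.diffAt hT hi hx
  have h2 := hg.diffAt hT hi hx
  unfold dl
  rw [dj_eq (h1.fun_sub h2), dj_eq h1, dj_eq h2, fderiv_fun_sub h1 h2]
  simp

theorem dl_const' (c : ℂ) (a : Fin n) : dl B i a (fun _ => c) x = 0 := by
  unfold dl
  rw [dj_eq (differentiableAt_const c)]
  simp

theorem qt_hol' (F : Frm L T σ) {s : B.ι → M → ℂ} (hs : IsHS L univ s) (i : B.ι) :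
    HolAt B i T (qt s σ) :=
  F.qt_hol (fun i => (hs.hol i).mono (subset_univ _))
    (fun i j y _ hy => hs.tr i j y hy (mem_univ _)) i

theorem wr_of_qt (hT : IsOpen T) (F : Frm L T σ) (s : Fin (p + 1) → B.ι → M → ℂ)
    (hs : ∀ k, IsHS L univ (s k)) (hx : x ∈ T) (hi : x ∈ (B.e i).source)
    (h0 : qt (s 0) σ x ≠ 0)
    (hl : LinearIndependent ℂ fun (k : Fin p) (a : Fin n) =>
      qt (s 0) σ x * dl B i a (qt (s k.succ) σ) x - qt (s k.succ) σ x * dl B i a (qt (s 0) σ) x) :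
    s 0 i x ≠ 0 ∧ LinearIndependent ℂ fun (k : Fin p) (a : Fin n) =>
      s 0 i x * dl B i a (s k.succ i) x - s k.succ i x * dl B i a (s 0 i) x := by
  have hv : ∀ k, ∀ y ∈ T, y ∈ (B.e i).source → s k i y = qt (s k) σ y * σ i y := by
    intro k y hy hy'
    rw [F.qt_eq (fun i j y _ hy => (hs k).tr i j y hy (mem_univ _)) hy hy',
      div_mul_cancel₀ _ (F.ne i y hy hy')]
  have hd : ∀ k a, dl B i a (s k i) x =
      qt (s k) σ x * dl B i a (σ i) x + σ i x * dl B i a (qt (s k) σ) x := by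
    intro k a
    rw [← dl_mul_hol hT (qt_hol' F (hs k) i) (F.hol i) hx hi]
    refine dl_congr' hi ?_ a
    filter_upwards [hT.mem_nhds hx, (B.e i).open_source.mem_nhds hi] with y h1 h2 using hv k y h1 h2
  have hσ := F.ne i x hx hi
  refine ⟨by rw [hv 0 x hx hi]; exact mul_ne_zero h0 hσ, ?_⟩
  have h1 := hl.units_smul fun _ : Fin p => Units.mk0 (σ i x ^ 2) (pow_ne_zero 2 hσ)
  refine (congrArg (fun v : Fin p → Fin n → ℂ => LinearIndependent ℂ v) ?_).mpr h1
  funext t a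
  simp only [hd, hv _ x hx hi, Pi.smul_apply', Units.smul_mk0, Pi.smul_apply, smul_eq_mul]
  ring

/-- the functions `1, t_1, …, t_p` -/
def ak (k : Fin (p + 1)) (t : Cn p) : ℂ := Fin.cons (α := fun _ => ℂ) 1 (fun l => t l) k

@[simp] theorem ak_zero (t : Cn p) : ak 0 t = 1 := rfl
@[simp] theorem ak_succ (k : Fin p) (t : Cn p) : ak k.succ t = t k := rfl

/-- `s_k / σ - a_k (π)` vanishes to order two at `x` -/
theorem wr (H : Sbm B T π) (F : Frm L T σ) (s : Fin (p + 1) → B.ι → M → ℂ)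
    (hs : ∀ k, IsHS L univ (s k)) (hx : x ∈ T) (hi : x ∈ (B.e i).source)
    (hv : ∀ k, qt (s k) σ x = ak k (π x))
    (hd : ∀ k a, dl B i a (fun y => qt (s k) σ y - ak k (π y)) x = 0) :
    s 0 i x ≠ 0 ∧ LinearIndependent ℂ fun (k : Fin p) (a : Fin n) =>
      s 0 i x * dl B i a (s k.succ i) x - s k.succ i x * dl B i a (s 0 i) x := by
  have h0 : ∀ a, dl B i a (qt (s 0) σ) x = 0 := fun a => by
    have h1 := hd 0 a
    simp only [ak_zero] at h1
    rwa [dl_sub_hol H.opn (qt_hol' F (hs 0) i) (holAt_const 1) hx hi, dl_const', sub_zero] at h1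
  have h1 : ∀ (k : Fin p) a, dl B i a (qt (s k.succ) σ) x = dp B i π x k a := fun k a => by
    have h1 := hd k.succ a
    simp only [ak_succ] at h1
    rw [dl_sub_hol H.opn (qt_hol' F (hs _) i) (H.holAt i k) hx hi] at h1
    exact sub_eq_zero.1 h1
  refine wr_of_qt H.opn F s hs hx hi (by rw [hv 0]; exact one_ne_zero) ?_
  have h2 := Plk.twdg_ne_zero_iff.1 (H.dW_ne hx hi)
  refine (congrArg (fun v : Fin p → Fin n → ℂ => LinearIndependent ℂ v) ?_).mpr h2
  funext t a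
  rw [h0, h1, hv 0]
  simp only [ak_zero, one_mul, mul_zero, sub_zero]
  rfl

end wr

variable {X : Type} [TopologicalSpace X] {A : Atl n X} {G : Type} [Group G] {D : MonD A G}
  [Countable A.ι] [Countable G] [MeasurableSpace (D.cov G)] [BorelSpace (D.cov G)]

/-- the form used in JET: `prj r V = s • Sbi e` -/
theorem sumB_prj {N : LB A} {s : (D.atl G).ι → D.cov G → ℂ} (F : Top.Fol D p) (K0 : Kah A)
    {N' : LB (D.atl G)} (h : HM ((KB (D.atl G))⁻¹ * N')) (vol : HM (KB (D.atl G))⁻¹)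
    {V : (D.atl G).ι → D.cov G → FI n → ℂ} (hV : IsV N' V)
    (hm : MemLp (rr h vol (pullKah D G K0) V) 2 (vm vol)) (w0 : A.ι → X → ℝ)
    (hw0 : ∀ i, ContinuousOn (w0 i) (A.e i).source) (hw1 : ∀ i, ∀ x ∈ (A.e i).source, 0 < w0 i x)
    (hw : ∀ q, ∀ y ∈ ((D.atl G).e q).source, w0 q.1 (D.pr y) ≤ h.w q y)
    (hs : IsHS (D.pullLB G N) univ s) {r : ℕ}
    (hVs : ∀ q, ∀ y ∈ ((D.atl G).e q).source,
      prj r (V q y) = s q y • (Sbi ℂ n *ᵥ Top.upF D F.e q y)) : SumB D s :=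
  sumB_of_le K0 h vol hV hm w0 hw0 hw1 hw (fun i x => Sbi ℂ n *ᵥ F.e i x) (fol_hol F)
    (fun i _ hx => fol_freq' F i hx) hs fun q y hy S => by
      have h1 : s q y * (Sbi ℂ n *ᵥ F.e q.1 (D.pr y)) S = prj r (V q y) S :=
        (congrFun (hVs q y hy) S).symm
      rw [h1]
      unfold prj
      split_ifs
      · exact norm_le_pi_norm _ S
      · simp

/-- **end of JET** -/
theorem jet_end (F : Top.Fol D p) (K0 : Kah A) {k : ℕ} (hk : 0 < k)
    {N' : LB (D.atl G)} (h : HM ((KB (D.atl G))⁻¹ * N')) (vol : HM (KB (D.atl G))⁻¹)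
    (w0 : A.ι → X → ℝ)
    (hw0 : ∀ i, ContinuousOn (w0 i) (A.e i).source) (hw1 : ∀ i, ∀ x ∈ (A.e i).source, 0 < w0 i x)
    (hw : ∀ q, ∀ y ∈ ((D.atl G).e q).source, w0 q.1 (D.pr y) ≤ h.w q y)
    {T : Set (D.cov G)} {π : D.cov G → Cn p} (H : Sbm (D.atl G) T π)
    {σ : (D.atl G).ι → D.cov G → ℂ} (Fσ : Frm (D.pullLB G (F.L ^ k)) T σ)
    {q : (D.atl G).ι} {x : D.cov G} (hx : x ∈ T) (hq : x ∈ ((D.atl G).e q).source) {r : ℕ}
    (hex : ∀ t : Fin (p + 1), ∃ (V : (D.atl G).ι → D.cov G → FI n → ℂ)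
      (s : (D.atl G).ι → D.cov G → ℂ), IsV N' V ∧
      MemLp (rr h vol (pullKah D G K0) V) 2 (vm vol) ∧ IsHS (D.pullLB G (F.L ^ k)) univ s ∧
      (∀ q, ∀ y ∈ ((D.atl G).e q).source,
        prj r (V q y) = s q y • (Sbi ℂ n *ᵥ Top.upF D F.e q y)) ∧
      qt s σ x = ak t (π x) ∧ ∀ a, dl (D.atl G) q a (fun y => qt s σ y - ak t (π y)) x = 0) :
    ∃ (m : ℕ) (s : Fin (p + 1) → A.ι → X → ℂ), 0 < m ∧ (∀ t, IsHS (F.L ^ m) univ (s t)) ∧
      ∃ i, ∃ x ∈ (A.e i).source, (Top.wdg fun (t : Fin p) (a : Fin n) =>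
        s 0 i x * dl A i a (s t.succ i) x - s t.succ i x * dl A i a (s 0 i) x) ≠ 0 := by
  choose V s hV hm hs hVs hv hd using hex
  obtain ⟨h0, hl⟩ := wr H Fσ s hs hx hq hv hd
  exact poin_wdg hk s hs
    (fun t => sumB_prj F K0 h vol (hV t) (hm t) w0 hw0 hw1 hw (hs t) (hVs t)) hq h0 hl

end

end Crest.Agent.X261.Hc
end

-- ▼ part X261/Jet/Main
section

/-!
# Row 261, package JET (helper6), file `Main`: `Top.JetStmt`
-/

set_option autoImplicit false
set_option linter.unusedSectionVars false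
set_option linter.style.haveILetI false

open Set Filter Topology Complex Matrix MeasureTheory Metric
open scoped ContDiff Matrix ComplexConjugate ComplexOrder ENNReal

namespace Crest.Agent.X261.Jet.Mn

open Crest.Agent.R275 Crest.Agent.R275.Geo Crest.Agent.R275.Core144
open Crest.Agent.R275.OmT75 (dl)
open Crest.Agent.R273.Defs_333 Crest.Agent.R273.HM_333 Crest.Agent.R273.Kah_333
open Crest.Agent.R273.Vm_333 Crest.Agent.R273.Fock_243 Crest.Agent.R273.UCov_914
open Crest.Agent.R273.BKNa_37 (IsV)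
open Crest.Agent.R273.Berezin_505 (Sbi)
open Crest.Agent.R273.RMan4_798 (pullKah)
open Crest.Agent.T223.Hm (hq Cut)
open Crest.Agent.X261.Hs Crest.Agent.X261.Jet.Fr Crest.Agent.X261.Jet.Tb Crest.Agent.X261.Jet.Pre

noncomputable section

/-- the frame of the pulled back line bundle over a tube -/
def EpsStmt : Prop :=
  ∀ {n p : ℕ} {X : Type} [TopologicalSpace X] {B : Atl n X} {G : Type} [Group G] {D : MonD B G}
    (F : Top.Fol D p) {x : D.cov G} (_ : x ∈ F.T.M0),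
    ∃ u, Eps (D.pullLB G F.L) (F.T.T x) (F.T.π x) (Top.upF D F.e) u

/-- fields that are killed by the `dπ_k` on a set of positive measure -/
def ParStmt : Prop :=
  ∀ {n p : ℕ} {M : Type} [TopologicalSpace M] {A : Atl n M} {T : Set M} {π : M → Cn p}
    {L N : LB A} {e : A.ι → M → FI n → ℂ} {u : A.ι → M → ℂ} [Countable A.ι] [T2Space M]
    [MeasurableSpace M] [BorelSpace M] [PreconnectedSpace M] (_ : Sbm A T π) (_ : Eps L T π e u)
    {r : ℕ} (_ : p + r = n) {L1 : LB A} (_ : ∀ i j, ∀ x ∈ (A.e i).source ∩ (A.e j).source,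
      L1.g i j x = ((KB A)⁻¹ * N).g i j x * L.g i j x)
    {V : A.ι → M → FI n → ℂ} (_ : IsV N V) (_ : ∀ i S, HolAt A i univ fun x => V i x S)
    (vol : HM (KB A)⁻¹) {E : Set M} (_ : vm vol E ≠ 0) {i : A.ι} (_ : E ⊆ T ∩ (A.e i).source)
    (_ : ∀ k, ∀ᵐ x ∂(vm vol), x ∈ E → iW (dp A i π x k) *ᵥ V i x = 0),
    ∃ s, IsHS L1 univ s ∧ ∀ i, ∀ x ∈ (A.e i).source,
      prj r (V i x) = s i x • (Sbi ℂ n *ᵥ e i x)

variable {n p : ℕ} {M : Type} [TopologicalSpace M] {A : Atl n M} {L : LB A} {T : Set M}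
  {π : M → Cn p} {e : A.ι → M → FI n → ℂ} {u : A.ι → M → ℂ}

theorem locCpt (A : Atl n M) {x : M} {O : Set M} (hO : O ∈ 𝓝 x) :
    ∃ C ∈ 𝓝 x, IsCompact C ∧ C ⊆ O := by
  obtain ⟨i, hi⟩ := A.cover x
  have h1 : (A.e i).target ∩ (A.e i).symm ⁻¹' O ∈ 𝓝 (A.e i x) :=
    inter_mem ((A.e i).open_target.mem_nhds ((A.e i).map_source hi)) (ev_read hi hO)
  obtain ⟨C, h2, h3, h4⟩ := local_compact_nhds h1
  refine ⟨(A.e i).symm '' C, ?_,
    h4.image_of_continuousOn ((A.e i).continuousOn_symm.mono fun z hz => (h3 hz).1), ?_⟩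
  · have := (A.e i).symm.image_mem_nhds ((A.e i).map_source hi) h2
    rwa [(A.e i).left_inv hi] at this
  · rintro _ ⟨z, hz, rfl⟩
    exact (h3 hz).2

variable [Countable A.ι] [T2Space M] [MeasurableSpace M] [BorelSpace M]

/-- one section with a prescribed `1`-jet along the fibre -/
theorem one (par1 : ParStmt) [PreconnectedSpace M] (P : Part A) {K : Kah A} (hcut : Cut K) (H : Tub A T π)
    (hp : 1 ≤ p) {r : ℕ} (hr : p + r = n) (E0 : Eps L T π e u) {h : HM L} {vol : HM (KB A)⁻¹}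
    {φ S : M → ℝ} {f lf g lg : ℕ → ℕ → M → ℝ} {eps : ℕ → ℝ} {cr : ℕ → M → ℝ} {C0 : ℝ}
    (F : Ap K h vol φ f lf eps cr C0) (G : Ap K h vol S g lg eps cr C0)
    (hle : ∀ᵐ x ∂(vm vol), S x ≤ φ x) {r₁ r₀ r₂ : ℝ} (h1 : 0 < r₁) (h10 : r₁ < r₀) (h0 : r₀ < 1)
    (h2 : 0 < r₂) {b : ℝ}
    (off : ∀ ν, ∀ᶠ μ in atTop, ∀ x ∉ {x | x ∈ T ∧ ‖π x‖ < r₁}, f ν μ x - b ≤ g ν μ x) {k : ℕ}
    (hint : IntegrableOn (fun x => Real.exp (-(((k : ℝ) + 1) * φ x))) {x | x ∈ T ∧ ‖π x‖ ≤ r₀}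
      (vm vol)) {c C' : ℝ} (hc : 0 ≤ c) (hkc : ((2 * (p + 1) : ℕ) : ℝ) ≤ k * c)
    (hS : ∀ᵐ x ∂(vm vol), x ∈ T → π x ≠ 0 → ‖π x‖ ≤ r₂ → S x ≤ c * Real.log ‖π x‖ + C')
    {x₀ : M} (hx : x₀ ∈ T) (hπ : π x₀ = 0) {q : A.ι} (hq : x₀ ∈ (A.e q).source) {L1 : LB A}
    (hL : ∀ i j, ∀ x ∈ (A.e i).source ∩ (A.e j).source, L1.g i j x = L.g i j x ^ (k + 1 + 1))
    {a : Cn p → ℂ} (ha : Differentiable ℂ a) :
    ∃ (V : A.ι → M → FI n → ℂ) (s : A.ι → M → ℂ), IsV (KB A * L ^ (k + 1)) V ∧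
      MemLp (rr (hP h (k + 1)) vol K V) 2 (vm vol) ∧ IsHS L1 univ s ∧
      (∀ i, ∀ y ∈ (A.e i).source, prj r (V i y) = s i y • (Sbi ℂ n *ᵥ e i y)) ∧
      qt s (fun i x => u i x ^ (k + 1 + 1)) x₀ = a (π x₀) ∧
      ∀ l, dl A q l (fun y => qt s (fun i x => u i x ^ (k + 1 + 1)) y - a (π y)) x₀ = 0 := by
  have hN : ∀ i j x, ((KB A)⁻¹ * (KB A * L ^ (k + 1))).g i j x = L.g i j x ^ (k + 1) :=
    fun i j x => by rw [inv_mul_cancel_left, LB_pow_g]
  have Fσ := E0.frm.pow (k + 1) fun i j x _ => hN i j x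
  have hk : (0 : ℝ) ≤ k := Nat.cast_nonneg k
  have hcur : ∀ i, ∀ x ∈ (A.e i).source, ∀ ξ,
      T223.Hm.hq (cur (hP h (k + 1)) i x) ξ = ((k : ℝ) + 1) * T223.Hm.hq (cur h i x) ξ :=
    fun i x hx ξ => by rw [cur_hP h _ i hx, Nat.cast_succ]
  obtain ⟨v, v1, v2, v3, v4⟩ := H.exists_v1 hr Fσ (hP h (k + 1)) vol K ha h1 h10 h0
  obtain ⟨D, hD, Λ, Y, a1, a2, a3, a4⟩ :=
    step1 P hcut F G hk (hP h (k + 1)) hcur hle v v1 _ v2 b off (v4 _ hint)
  obtain ⟨θ, t1, t2, t3, t4⟩ := H.exists_theta h1 (h10.trans h0)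
  obtain ⟨C, c1, c2, c3⟩ := locCpt A (inter_mem ((H.isOpen_lt r₁).mem_nhds
    ⟨hx, by rwa [hπ, norm_zero]⟩) ((A.e q).open_source.mem_nhds hq))
  obtain ⟨V, b1, b2, b3, b4, b5⟩ := St2.st2 P hcut F.toWS G.toWS (hP h (k + 1)) hk hcur F.um G.um
    (fun ν => by
      filter_upwards [F.ul ν, G.ul ν] with x p1 p2
      simpa only [add_sub_add_right_eq_sub] using p2.sub p1) F.le_f _ b off t1 t2 t3
    (fun i x hi hx ξ => (t4 i x hi hx.1 hx.2 ξ).1) c2 (fun x hx => (c3 hx).2)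
    (b := fun j x => dp A q π x j)
    (fun j => (H.contOn_dp q j).mono fun x hx => ⟨(c3 hx).1.1, (c3 hx).2⟩)
    (fun j x hx ξ => (t4 q x (c3 hx).2 (c3 hx).1.1 (c3 hx).1.2 ξ).2 j) Λ a1 hD a4
  obtain ⟨s, s1, s2⟩ := par1 (L1 := L1) H.toSbm E0 hr
    (fun i j x hx => by rw [hL i j x hx, hN, pow_succ]) b1 b2 vol
    (H.posE hp vol hx hπ c1 (k := (k : ℝ) + 1) (by linarith) (by linarith) (lt_min h2 h1)
      (hS.mono fun x p1 p2 p3 p4 => p1 p2 p3 (p4.trans (min_le_left _ _)))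
      (hint.mono_set fun x hx => ⟨hx.1, hx.2.trans ((min_le_right _ _).trans h10.le)⟩) (-(b + 3)))
    (fun x hx => ⟨(c3 hx.1).1.1, (c3 hx.1).2⟩) fun j => (b5 j).mono fun x p1 p2 => p1 p2.1 p2.2
  obtain ⟨j1, j2⟩ := jet_end (hP h (k + 1)) vol K H hp hr Fσ b1 (R273.DMetB_733.isV v)
    (lt_min h2 h1) (f := qt s fun i x => u i x ^ (k + 1 + 1)) (a := fun x => a (π x))
    (fun i => ((E0.qt_hol hL s1 i).sub (H.hol_comp ha i)).mono fun x hx => hx.1)
    (fun i x hx _ hi => (s2 i x hi).trans (E0.rep hL s1 hx hi))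
    (fun i x hx p1 hi => v3 i x hx (p1.trans_le (min_le_right _ _)) hi)
    (om := fun x => Real.exp (k * S x)) (fun x => (Real.exp_pos _).le) (C := Real.exp (k * C')) hD
    (hS.mono fun x p1 p2 p3 p4 => exp_le (norm_pos_iff.2 p3) (H.lt x p2).le hk hkc
      (p1 p2 p3 (p4.le.trans (min_le_left _ _))))
    (fun w hw h0 => by
      rw [b4 w hw h0, a2 w hw, sub_sub_cancel_left, norm_neg]
      exact a3 w hw) hx hπ
  exact ⟨V, s, b1, b3, s1, s2, j1, j2 q hq⟩

/-- **JET** -/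
theorem jetStmt_of (exists_eps : EpsStmt) (par1 : ParStmt) : Top.JetStmt := by
  intro n X _ _ _ _ A _ _ P K0 G _ D hconn p hp F h Q
  haveI : Countable G := Cov.A.countable D
  borelize (D.cov G)
  have H := tub_of_tube F.T Q.x₀_mem
  have hc := tube_conn F.T Q.x₀_mem
  have hx := F.T.T_mem _ Q.x₀_mem
  have hπ := F.T.π_self _ Q.x₀_mem
  obtain ⟨u, E0⟩ := exists_eps F Q.x₀_mem
  obtain ⟨r, hr⟩ := Nat.exists_eq_add_of_le (H.le_dim hx)
  obtain ⟨k, hk⟩ := exists_nat_ge (((2 * (p + 1) : ℕ) : ℝ) / Q.c)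
  rw [div_le_iff₀ Q.c_pos] at hk
  let vol := R273.Vol_333.volK (pullKah D G K0)
  have hk1 : (0 : ℝ) < k + 1 := by positivity
  obtain ⟨r₀, p1, p2, -, hint⟩ := int_tube H hc E0.frm (D.pullHM (F := G) h) Q.φ_psh vol hx hπ
    Q.q_mem hk1 (Q.int _ hk1)
  have hρ : r₀ / 3 ∈ Ioo (0 : ℝ) 1 := ⟨by linarith, by linarith⟩
  obtain ⟨C, hC⟩ := Q.S_pole _ hρ
  obtain ⟨r₂, C', p3, -, hS⟩ := pole_tube H hc E0.frm (D.pullHM (F := G) h) (Q.S_psh _ hρ) hx hπ
    Q.q_mem Q.c_pos hC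
  obtain ⟨f, lf, g, lg, eps, cr, C0, Fa, Ga, hb, -, hle, b, off⟩ := pol_ap P K0 hp Q hρ vol
    (H.isOpen_lt (r₀ / 2)) fun x hx => ⟨hx.1, hx.2.trans_lt (by linarith)⟩
  have hL : ∀ i j, ∀ x ∈ ((D.atl G).e i).source ∩ ((D.atl G).e j).source,
      (D.pullLB G (F.L ^ (k + 1 + 1))).g i j x = (D.pullLB G F.L).g i j x ^ (k + 1 + 1) :=
    fun i j x _ => by rw [D.pullLB_pow, LB_pow_g]
  refine Hc.jet_end F K0 (Nat.succ_pos (k + 1)) (hP (D.pullHM (F := G) h) (k + 1)) vol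
    (fun i x => h.w i x ^ (k + 1)) (fun i => (T223.Hm.contOn_smAt (h.sm i)).pow _)
    (fun i x hx => pow_pos (h.pos i x hx) _) (fun _ _ _ => le_rfl) H.toSbm
    (E0.frm.pow (k + 1 + 1) hL) hx Q.q_mem (r := r) fun t => ?_
  refine one par1 (D.pullPart G P) (Cov.C.cut_pull D K0 P) H hp hr.symm E0 Fa Ga hle (half_pos p1)
    (half_lt_self p1) p2 p3 off hint (C' := C') Q.c_pos.le hk ?_ hx hπ Q.q_mem hL ?_
  · filter_upwards [hb] with x q1 q2 q3 q4
    have h1 := hS x q2 q3 q4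
    have h2 := EReal.toReal_le_toReal h1 q1.2 (EReal.coe_ne_top _)
    rwa [EReal.toReal_coe] at h2
  · refine Fin.cases (differentiable_const 1) (fun l => ?_) t
    exact (EuclideanSpace.proj l : Cn p →L[ℂ] ℂ).differentiable

theorem jetK_of (h1 : EpsStmt) (h2 : ParStmt) : Sk.JetK := Sk.jetK_of (jetStmt_of h1 h2)

end

end Crest.Agent.X261.Jet.Mn
end

-- ▼ part X261/Bog/Nrm
section

/-!
Row 261, BOG (helper63): norms.  `NoBog.multi`: multivalued sections (finitely many sheets that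
are permuted by the changes of charts).
-/

set_option autoImplicit false
set_option linter.unusedSectionVars false

open Set Filter Topology
open scoped Matrix

noncomputable section

namespace Crest.Agent.X261.Bog

open Crest.Agent.R275.Geo Crest.Agent.R275.Core144 Crest.Agent.R273.Fock_243
open Crest.Agent.R273.Map_835 Crest.Agent.R273.PB_835 Crest.Agent.R275.GC293
open Crest.Agent.R281.Kd_22 Crest.Agent.R273.SteinC_794 Crest.Agent.R273.SteinD_794

/-- partial fractions -/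
theorem resid {Q : Type} [Fintype Q] [DecidableEq Q] (a c : Q → ℂ) (q₀ : Q)
    (hac : ∀ q, a q = a q₀ → c q = c q₀)
    (h : ∀ t : ℂ, ∑ q, (∏ q' ∈ Finset.univ.erase q, (t - a q')) * c q = 0) : c q₀ = 0 := by
  classical
  have h1 : ∀ᶠ t in 𝓝[≠] (a q₀), ∀ q, t ≠ a q := by
    refine eventually_all.2 fun q => ?_
    by_cases hq : a q = a q₀
    · rw [hq]; exact self_mem_nhdsWithin
    · exact mem_nhdsWithin_of_mem_nhds (isOpen_ne.mem_nhds (Ne.symm hq))
  have h2 : ∀ᶠ t in 𝓝[≠] (a q₀), ∑ q, c q * ((t - a q₀) / (t - a q)) = 0 := by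
    filter_upwards [h1] with t ht
    have h3 : ∏ q, (t - a q) ≠ 0 := Finset.prod_ne_zero_iff.2 fun q _ => sub_ne_zero.2 (ht q)
    apply mul_left_cancel₀ h3
    rw [mul_zero, Finset.mul_sum, ← mul_zero (t - a q₀), ← h t, Finset.mul_sum]
    refine Finset.sum_congr rfl fun q _ => ?_
    rw [← Finset.mul_prod_erase _ _ (Finset.mem_univ q)]
    have h4 := sub_ne_zero.2 (ht q)
    field_simp
  have h3 : Tendsto (fun t => ∑ q, c q * ((t - a q₀) / (t - a q))) (𝓝[≠] (a q₀))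
      (𝓝 (∑ q, if a q = a q₀ then c q₀ else 0)) := by
    refine tendsto_finsetSum _ fun q _ => ?_
    by_cases hq : a q = a q₀
    · rw [if_pos hq, hac q hq, hq]
      refine tendsto_const_nhds.congr' ?_
      filter_upwards [self_mem_nhdsWithin] with t ht
      rw [div_self (sub_ne_zero.2 ht), mul_one]
    · rw [if_neg hq]
      have h4 : ContinuousAt (fun t => c q * ((t - a q₀) / (t - a q))) (a q₀) :=
        continuousAt_const.mul ((continuousAt_id.sub continuousAt_const).div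
          (continuousAt_id.sub continuousAt_const) (sub_ne_zero.2 (Ne.symm hq)))
      have h5 := h4.tendsto.mono_left (nhdsWithin_le_nhds (s := {a q₀}ᶜ))
      simpa using h5
  have h4 := tendsto_nhds_unique (h3.congr' h2) tendsto_const_nhds
  rw [Finset.sum_ite, Finset.sum_const_zero, add_zero, Finset.sum_const, nsmul_eq_mul] at h4
  refine (mul_eq_zero.1 h4).resolve_left (Nat.cast_ne_zero.2 ?_)
  exact (Finset.card_pos.2 ⟨q₀, by simp⟩).ne'

/-- selection of independent covectors -/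
theorem exists_li_sel {n p : ℕ} {J : Type*} (φ : J → Cn n →L[ℂ] ℂ) {ψ : Fin p → Cn n →L[ℂ] ℂ}
    (hψ : LinearIndependent ℂ ψ) (h : ∀ v, (∀ j, φ j v = 0) → ∀ k, ψ k v = 0) :
    ∃ s : Fin p → J, LinearIndependent ℂ fun k => φ (s k) := by
  let T : (Cn n →L[ℂ] ℂ) →ₗ[ℂ] (Cn n →ₗ[ℂ] ℂ) := ContinuousLinearMap.coeLM ℂ
  have hT : LinearMap.ker T = ⊥ := by
    rw [LinearMap.ker_eq_bot]
    exact ContinuousLinearMap.coe_injective
  have h1 : ∀ k, T (ψ k) ∈ Submodule.span ℂ (range fun j => T (φ j)) := fun k =>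
    FiniteDimensional.mem_span_of_iInf_ker_le_ker fun v hv => by
      rw [Submodule.mem_iInf] at hv
      exact h v hv k
  have h2 : p ≤ Module.finrank ℂ (Submodule.span ℂ (range fun j => T (φ j))) := by
    have h3 : LinearIndependent ℂ fun k =>
        (⟨T (ψ k), h1 k⟩ : Submodule.span ℂ (range fun j => T (φ j))) :=
      LinearIndependent.of_comp (Submodule.subtype _) (hψ.map' T hT)
    simpa using h3.fintype_card_le_finrank
  obtain ⟨f, hf, -, hli⟩ := Submodule.exists_fun_fin_finrank_span_eq ℂ (range fun j => T (φ j))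
  choose s hs using hf
  refine ⟨fun k => s (Fin.castLE h2 k), LinearIndependent.of_comp T ?_⟩
  have h4 := hli.comp _ (Fin.castLE_injective h2)
  have h5 : (⇑T ∘ fun k => φ (s (Fin.castLE h2 k))) = f ∘ Fin.castLE h2 := funext fun k => hs _
  rw [h5]
  exact h4

variable {n : ℕ} {M : Type} [TopologicalSpace M] {A : Atl n M} {x : M}

theorem not_flat_prod {ι : Type*} (s : Finset ι) {f : ι → M → ℂ} (hf : ∀ l ∈ s, Hm A (f l) x)
    (h0 : ∀ l ∈ s, ¬ ∀ᶠ y in 𝓝 x, f l y = 0) : ¬ ∀ᶠ y in 𝓝 x, ∏ l ∈ s, f l y = 0 := by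
  classical
  induction s using Finset.induction_on with
  | empty => intro h; simpa using h.self_of_nhds
  | insert k s hk ih =>
    simp only [Finset.prod_insert hk]
    intro h
    have h1 : ∀ l ∈ s, Hm A (f l) x := fun l hl => hf l (Finset.mem_insert_of_mem hl)
    rcases mul_flat (hf k (Finset.mem_insert_self k s)) (hm_prod s h1) h with h2 | h2
    · exact h0 k (Finset.mem_insert_self k s) h2
    · exact ih h1 (fun l hl => h0 l (Finset.mem_insert_of_mem hl)) h2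

/-- generic points for a finite family of germs -/
theorem frequently_gen {ι : Type*} [Finite ι] {f : ι → M → ℂ} (hf : ∀ l, Hm A (f l) x) :
    ∃ᶠ y in 𝓝 x, ∀ l, f l y = 0 → ∀ᶠ w in 𝓝 y, f l w = 0 := by
  classical
  have := Fintype.ofFinite ι
  let s : Finset ι := Finset.univ.filter fun l => ¬ ∀ᶠ y in 𝓝 x, f l y = 0
  have h1 := frequently_ne (not_flat_prod (A := A) s (fun l _ => hf l)
    fun l hl => (Finset.mem_filter.1 hl).2)
  have h2 : ∀ᶠ y in 𝓝 x, ∀ l, l ∉ s → ∀ᶠ w in 𝓝 y, f l w = 0 := by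
    refine eventually_all.2 fun l => ?_
    by_cases hl : l ∈ s
    · exact Eventually.of_forall fun _ h => absurd hl h
    · have h3 : ∀ᶠ y in 𝓝 x, f l y = 0 := by
        by_contra h4
        exact hl (Finset.mem_filter.2 ⟨Finset.mem_univ l, h4⟩)
      exact (eventually_eventually_nhds.2 h3).mono fun _ h _ => h
  refine (h1.and_eventually h2).mono fun y hy l hl => hy.2 l fun hls => ?_
  exact Finset.prod_ne_zero_iff.1 hy.1 l hls hl

theorem df_prod {ι : Type*} [DecidableEq ι] (s : Finset ι) {f : ι → M → ℂ} {i : A.ι}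
    (hf : ∀ l ∈ s, Hm A (f l) x) (hx : x ∈ (A.e i).source) :
    df A i (fun y => ∏ l ∈ s, f l y) x = ∑ l ∈ s, (∏ l' ∈ s.erase l, f l' x) • df A i (f l) x := by
  unfold df
  rw [fderiv_finsetProd fun l hl => (hf l hl i hx).differentiableAt, (A.e i).left_inv hx]

variable {p m : ℕ}

/-- **multivalued sections** -/
theorem NoBog.multi (h : NoBog A) (hp : 1 ≤ p) (F : LF A p) {W : F.κ → Set M} (hW : F.Dom W)
    {Q : Type} [Finite Q] (g : Fin (p + 1) → Q → F.κ → M → ℂ) (hext : ∀ k q, F.Ext W m (g k q))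
    (htr : ∀ a b, ∀ x ∈ W a ∩ W b, ∃ σ : Q ≃ Q, ∀ k q,
      F.TrAt m a b x (g k q a x) (g k (σ q) b x))
    {a : F.κ} (hx : x ∈ W a) (hnf : ∀ q, ¬ ∀ᶠ y in 𝓝 x, g 0 q a y = 0) (q₀ : Q)
    (h0 : g 0 q₀ a x ≠ 0) : ¬ LinearIndependent ℂ fun k : Fin p =>
      df A (F.ch a) (fun y => g k.succ q₀ a y / g 0 q₀ a y) x := by
  classical
  have := Fintype.ofFinite Q
  intro hli
  have hm : ∀ k q, ∀ y ∈ W a, Hm A (g k q a) y := fun k q y hy => (hext k q).hm hW hy
  have hsrc : ∀ y ∈ W a, y ∈ (A.e (F.ch a)).source := fun y hy => F.sub a (hW.sub a hy)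
  -- a generic point
  let D : Option (Fin p) × Q → M → ℂ := fun l y => match l.1 with
    | none => g 0 l.2 a y
    | some k => g k.succ l.2 a y * g 0 q₀ a y - g k.succ q₀ a y * g 0 l.2 a y
  have hD : ∀ l, Hm A (D l) x := by
    rintro ⟨_ | k, q⟩
    · exact hm 0 q x hx
    · exact ((hm _ q x hx).mul (hm 0 q₀ x hx)).sub ((hm _ q₀ x hx).mul (hm 0 q x hx))
  have hli' := li_ev (fun k : Fin p => cont_df (hm_div (hm k.succ q₀ x hx) (hm 0 q₀ x hx) h0)
    (hsrc x hx)) hli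
  have hWa : ∀ᶠ y in 𝓝 x, y ∈ W a := (hW.op a).mem_nhds hx
  obtain ⟨y, hgen, hy, hnf', hliy⟩ := ((frequently_gen hD).and_eventually (hWa.and
      ((eventually_all.2 fun q => ev_not_flat (hm 0 q x hx) (hnf q)).and hli'))).exists
  have hy0 : ∀ q, g 0 q a y ≠ 0 := fun q h1 => hnf' q (hgen (none, q) h1)
  have hys := hsrc y hy
  let z : Fin p → Q → M → ℂ := fun k q w => g k.succ q a w / g 0 q a w
  have hz : ∀ k q, Hm A (z k q) y := fun k q => hm_div (hm _ q y hy) (hm 0 q y hy) (hy0 q)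
  have hev0 : ∀ᶠ w in 𝓝 y, ∀ q, g 0 q a w ≠ 0 :=
    eventually_all.2 fun q => (hm 0 q y hy).ev_ne (hy0 q)
  have hzz : ∀ k q, z k q y = z k q₀ y → df A (F.ch a) (z k q) y = df A (F.ch a) (z k q₀) y := by
    intro k q h1
    refine df_congr hys ?_
    have h2 : D (some k, q) y = 0 := sub_eq_zero.2 ((div_eq_div_iff (hy0 q) (hy0 q₀)).1 h1)
    filter_upwards [hgen (some k, q) h2, hev0] with w h3 h4
    exact (div_eq_div_iff (h4 q) (h4 q₀)).2 (sub_eq_zero.1 h3)
  -- the norms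
  let N : ℂ × Fin p → F.κ → M → ℂ := fun j b w => ∏ q, (j.1 * g 0 q b w + (-1) * g j.2.succ q b w)
  let N₀ : F.κ → M → ℂ := fun b w => ∏ q, g 0 q b w
  have hsec : ∀ G : Q → F.κ → M → ℂ, (∀ q, F.Ext W m (G q)) →
      (∀ a b, ∀ x ∈ W a ∩ W b, ∃ σ : Q ≃ Q, ∀ q, F.TrAt m a b x (G q a x) (G (σ q) b x)) →
      F.Sec W (m * Fintype.card Q) fun b w => ∏ q, G q b w := by
    intro G h1 h2
    refine ⟨LF.Ext.prod Finset.univ fun q _ => h1 q, fun a b x hx c hc => ?_⟩
    obtain ⟨σ, hσ⟩ := h2 a b x hx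
    rw [Finset.prod_congr rfl fun q _ => hσ q c hc, Finset.prod_mul_distrib, Finset.prod_const,
      ← pow_mul, Equiv.prod_comp σ fun q => G q b x]
    rfl
  have hN : ∀ j, F.Sec W (m * Fintype.card Q) (N j) := fun j =>
    hsec (fun q b w => j.1 * g 0 q b w + (-1) * g j.2.succ q b w)
      (fun q => ((hext 0 q).smul _).add ((hext _ q).smul _)) fun a b x hx => by
        obtain ⟨σ, hσ⟩ := htr a b x hx
        refine ⟨σ, fun q c hc => ?_⟩
        rw [hσ 0 q c hc, hσ j.2.succ q c hc]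
        ring
  have hN₀ : F.Sec W (m * Fintype.card Q) N₀ := hsec (g 0) (hext 0) fun a b x hx => by
    obtain ⟨σ, hσ⟩ := htr a b x hx
    exact ⟨σ, hσ 0⟩
  have hr : ∀ j, df A (F.ch a) (fun w => N j a w / N₀ a w) y =
      ∑ q, (∏ q' ∈ Finset.univ.erase q, (j.1 - z j.2 q' y)) • (-df A (F.ch a) (z j.2 q) y) := by
    intro j
    have h1 : (fun w => N j a w / N₀ a w) =ᶠ[𝓝 y] fun w => ∏ q, (j.1 - z j.2 q w) := by
      filter_upwards [hev0] with w hw
      simp only [N, N₀, z]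
      rw [← Finset.prod_div_distrib]
      refine Finset.prod_congr rfl fun q _ => ?_
      have := hw q
      field_simp
      ring
    rw [df_congr hys h1, df_prod _ (fun q _ => (Hm.const _ y).sub (hz _ q)) hys]
    refine Finset.sum_congr rfl fun q _ => ?_
    rw [df_sub' (Hm.const _ y) (hz _ q) hys, df_const, zero_sub]
  obtain ⟨s, hs⟩ := exists_li_sel (fun j => df A (F.ch a) (fun w => N j a w / N₀ a w) y) hliy (by
    intro v hv k
    refine neg_eq_zero.1 (resid (fun q => z k q y) (fun q => -df A (F.ch a) (z k q) y v) q₀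
      (fun q hq => by rw [hzz k q hq]) fun t => ?_)
    have h1 := hv (t, k)
    rw [hr] at h1
    simpa only [sum_apply, smul_apply, neg_apply, smul_eq_mul] using h1)
  refine h p hp F W (m * Fintype.card Q) (Fin.cons N₀ fun k => N (s k)) hW (fun k => ?_) a y hy
    (Finset.prod_ne_zero_iff.2 fun q _ => hy0 q) hs
  refine Fin.cases hN₀ (fun k => hN _) k

end Crest.Agent.X261.Bog
end
end

-- ▼ part X261/Bog/Cov
section

/-!
Row 261, BOG (helper63): `NoBog` on covers.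

* `LF.Sec.not_flat` : identity theorem for sections of a line field
* `NoBog.cov`       : sections `g β^m` on `D.cov G`, invariant under a subgroup of finite index
* `NoBog.forms`     : invariant parallel holomorphic forms
-/

set_option autoImplicit false
set_option linter.unusedSectionVars false

open Set Filter Topology
open scoped Matrix

noncomputable section

namespace Crest.Agent.X261.Bog

open Crest.Agent.R275.Geo Crest.Agent.R275.Core144 Crest.Agent.R273.Fock_243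
open Crest.Agent.R273.Map_835 Crest.Agent.R273.PB_835 Crest.Agent.R275.GC293
open Crest.Agent.R281.Kd_22 Crest.Agent.R273.SteinC_794 Crest.Agent.R273.SteinD_794
open Crest.Agent.R273.UCov_914 Crest.Agent.R273.HolF_578

section Ident

variable {n : ℕ} {M : Type} [TopologicalSpace M] {A : Atl n M} {p m : ℕ} {F : LF A p}
  {W : F.κ → Set M} {g : F.κ → M → ℂ} {x : M}

theorem LF.Sec.flat_chg (hg : F.Sec W m g) (hW : F.Dom W) {a b : F.κ} (ha : x ∈ F.U a)
    (h : ∀ᶠ y in 𝓝 x, y ∈ W a → g a y = 0) : ∀ᶠ y in 𝓝 x, y ∈ W b → g b y = 0 := by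
  filter_upwards [eventually_eventually_nhds.2 h, (F.op a).mem_nhds ha] with y h1 h2 hy
  have h3 := ev_eq_of_dense (g := fun _ => 0) (hm_ev_cont (hg.ext.hm hW hy))
    (Eventually.of_forall fun _ => continuousAt_const) (hW.ev_closure₂ ⟨hW.sub b hy, h2⟩) (by
      filter_upwards [h1] with w h4 hw
      obtain ⟨l, hl⟩ := (F.par b a w ⟨hW.sub b hw.1, hW.sub a hw.2⟩).symm.exists_smul
        (hW.ne b w hw.1)
      rw [hg.tr b a w hw l hl, h4 hw.2, mul_zero])
  exact h3.self_of_nhds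

/-- identity theorem for sections of a line field -/
theorem LF.Sec.not_flat [PreconnectedSpace M] (hg : F.Sec W m g) (hW : F.Dom W)
    (h0 : ∃ a, ∃ x ∈ W a, g a x ≠ 0) {a : F.κ} (hx : x ∈ F.U a) :
    ¬ ∀ᶠ y in 𝓝 x, y ∈ W a → g a y = 0 := by
  let Z : Set M := {x | ∃ a, x ∈ F.U a ∧ ∀ᶠ y in 𝓝 x, y ∈ W a → g a y = 0}
  have hZo : IsOpen Z := by
    rw [isOpen_iff_mem_nhds]
    rintro x ⟨b, hb, h⟩
    filter_upwards [eventually_eventually_nhds.2 h, (F.op b).mem_nhds hb] with y h1 h2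
    exact ⟨b, h2, h1⟩
  have hZc : IsClosed Z := by
    rw [← isOpen_compl_iff, isOpen_iff_mem_nhds]
    intro x hx
    obtain ⟨b, hb⟩ := F.cov x
    choose H hH hHe using hg.ext b x hb
    obtain ⟨T, hT⟩ := exists_not_flat (x := x) (τ := fun y T => H T y) (by
      intro hcon
      refine hx ⟨b, hb, ?_⟩
      filter_upwards [hcon, eventually_all.2 hHe] with y h1 h2 hy
      obtain ⟨T, hT⟩ := Function.ne_iff.1 (hW.ne b y hy)
      have h3 := congrFun h1 T
      rw [h2 T hy] at h3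
      exact (mul_eq_zero.1 h3).resolve_right (pow_ne_zero m hT))
    filter_upwards [ev_not_flat (hH T) hT, (F.op b).mem_nhds hb, (hH T).ev,
      eventually_eventually_nhds.2 (hHe T)] with y h1 h2 h3 h4
    rintro ⟨a, ha, h5⟩
    refine h1 (ev_eq_of_dense (g := fun _ => 0) (hm_ev_cont h3)
      (Eventually.of_forall fun _ => continuousAt_const) (hW.ev_closure h2) ?_)
    filter_upwards [h4, hg.flat_chg hW (b := b) ha h5] with w h6 h7 hw
    rw [h6 hw, h7 hw, zero_mul]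
  intro hcon
  have h1 : Z = univ := IsClopen.eq_univ ⟨hZc, hZo⟩ ⟨x, a, hx, hcon⟩
  obtain ⟨b, y, hy, h2⟩ := h0
  obtain ⟨c, hc, h3⟩ : y ∈ Z := h1 ▸ mem_univ y
  exact h2 ((hg.flat_chg hW (b := b) hc h3).self_of_nhds hy)

theorem tOm_of_Om {β : A.ι → M → FI n → ℂ} (hβ : β ∈ Om A p) : TOm (1 : LB A) p β :=
  ⟨hβ.1, fun i x _ S hS => by_contra fun h => hS (hβ.2.2.1 i x S h), fun i j x hx => by
    rw [LB.one_g, inv_one, one_smul]; exact hβ.2.2.2 i j x hx⟩

open Classical in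
/-- pointwise ratio of two vectors -/
def ra {κ : Type*} (u v : κ → ℂ) : ℂ := if h : ∃ c : ℂ, u = c • v then h.choose else 0

theorem ra_spec {κ : Type*} {u v : κ → ℂ} (h : Par u v) (hv : v ≠ 0) : u = ra u v • v := by
  have h1 := h.exists_smul hv
  rw [ra, dif_pos h1]
  exact h1.choose_spec

end Ident

section Cover

variable {n : ℕ} {X : Type} [TopologicalSpace X] {A : Atl n X} {G : Type} [Group G]
  (D : MonD A G) {E : Type} [MulAction G E] {i j : A.ι} {v : E} {x : X}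

theorem ev_pt (hx : x ∈ (A.e i).source) {P : D.cov E → Prop} :
    (∀ᶠ e in 𝓝 (D.pt i v x), P e) ↔ ∀ᶠ y in 𝓝 x, P (D.pt i v y) := by
  constructor
  · intro h
    exact ((D.continuousOn_pt i v).continuousAt ((A.e i).open_source.mem_nhds hx)).eventually h
  · intro h
    have h1 : Tendsto D.pr (𝓝 (D.pt i v x)) (𝓝 x) := D.continuous_pr.continuousAt
    filter_upwards [h1.eventually h, (D.isOpen_sheet i v).mem_nhds (D.pt_mem_sheet v hx)]
      with e h2 h3
    rwa [D.pt_of_mem h3] at h2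

theorem hm_pt (hx : x ∈ (A.e i).source) {f : D.cov E → ℂ} :
    Hm (D.atl E) f (D.pt i v x) ↔ Hm A (fun y => f (D.pt i v y)) x :=
  ⟨fun h => Hm.of_one hx (h (i, v) (D.pt_mem_sheet v hx)),
    fun h => Hm.of_one (A := D.atl E) (i := (i, v)) (D.pt_mem_sheet v hx) (h i hx)⟩


variable {p m : ℕ} {β : (D.atl E).ι → D.cov E → FI n → ℂ}

/-- the form read on the sheet `v` over the chart `i` -/
def sh (β : (D.atl E).ι → D.cov E → FI n → ℂ) (i : A.ι) (v : E) (x : X) : FI n → ℂ :=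
  β (i, v) (D.pt i v x)

theorem sh_tr (hβ : β ∈ Om (D.atl E) p) (hi : x ∈ (A.e i).source) (hj : x ∈ (A.e j).source) :
    sh D β i v x = tp A i j x (sh D β j (D.c i j x • v) x) := by
  unfold sh
  rw [← D.pt_eq v hi hj]
  exact hβ.2.2.2 (i, v) (j, D.c i j x • v) _ ⟨D.pt_mem_sheet v hi, hj, D.co_pt' v hi hj⟩

theorem hm_sh (hβ : β ∈ Om (D.atl E) p) (hi : x ∈ (A.e i).source) (S : FI n) :
    Hm A (fun y => sh D β i v y S) x :=
  (hm_pt D hi).1 ((tOm_of_Om hβ).hm (i := (i, v)) (D.pt_mem_sheet v hi) S)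

theorem nf_Om [PreconnectedSpace (D.cov E)] (hβ : β ∈ Om (D.atl E) p) (h0 : ∃ q e, β q e ≠ 0) :
    ∀ q, ∀ e ∈ ((D.atl E).e q).source, ¬ ∀ᶠ y in 𝓝 e, β q y = 0 := by
  intro q e he
  refine (tOm_of_Om hβ).not_flat ?_ q he
  obtain ⟨q', e', h1⟩ := h0
  exact ⟨q', e', by_contra fun h2 => h1 (hβ.2.1 q' e' h2), h1⟩

theorem nf_sh [PreconnectedSpace (D.cov E)] (hβ : β ∈ Om (D.atl E) p) (h0 : ∃ q e, β q e ≠ 0)
    (hi : x ∈ (A.e i).source) : ¬ ∀ᶠ y in 𝓝 x, sh D β i v y = 0 := fun h =>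
  nf_Om D hβ h0 (i, v) _ (D.pt_mem_sheet v hi) ((ev_pt D hi).2 h)

/-- the line field on the base of a form on the cover whose line is invariant -/
def lfCov [PreconnectedSpace (D.cov E)] (hβ : β ∈ Om (D.atl E) p) (h0 : ∃ q e, β q e ≠ 0)
    (hpar : ∀ i v w, ∀ x ∈ (A.e i).source, Par (sh D β i v x) (sh D β i w x)) (v₀ : E) :
    LF A p where
  κ := A.ι
  ch := id
  U i := (A.e i).source
  op i := (A.e i).open_source
  sub _ := subset_rfl
  cov := A.cover
  τ i := sh D β i v₀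
  hm _ _ hx S := hm_sh D hβ hx S
  deg i x _ S hS := by_contra fun h => hS (hβ.2.2.1 _ _ S h)
  nf _ _ hx := nf_sh D hβ h0 hx
  par i j x hx := by
    rw [sh_tr D hβ hx.1 hx.2]
    exact (hpar j _ _ x hx.2).mulVec _

end Cover

section Main

variable {n : ℕ} {X : Type} [TopologicalSpace X] {A : Atl n X} {G : Type} [Group G] {p m : ℕ}

/-- **`NoBog` on a cover**: the sections `g k · β ^ m` are invariant under the subgroup `H` of finite
index -/
theorem NoBog.cov (h : NoBog A) (hp : 1 ≤ p) (D : MonD A G) [PreconnectedSpace (D.cov G)]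
    (H : Subgroup G) [H.FiniteIndex] {β : (D.atl G).ι → D.cov G → FI n → ℂ}
    (hβ : β ∈ Om (D.atl G) p)
    (hpar : ∀ i v w, ∀ x ∈ (A.e i).source,
      Par (β (i, v) (D.pt i v x)) (β (i, w) (D.pt i w x)))
    {W₀ : Set X} (hWo : IsOpen W₀) (hWd : Dense W₀) (g : Fin (p + 1) → D.cov G → ℂ)
    (hext : ∀ k q, ∀ e ∈ ((D.atl G).e q).source, ∀ S, ∃ f : D.cov G → ℂ, Hm (D.atl G) f e ∧
      ∀ᶠ y in 𝓝 e, D.pr y ∈ W₀ → β q y ≠ 0 → f y = g k y * β q y S ^ m)
    (hinv : ∀ k, ∀ s ∈ H, ∀ i v, ∀ x ∈ (A.e i).source, x ∈ W₀ → ∀ c : ℂ,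
      β (i, v) (D.pt i v x) ≠ 0 → β (i, v * s) (D.pt i (v * s) x) ≠ 0 →
      β (i, v * s) (D.pt i (v * s) x) = c • β (i, v) (D.pt i v x) →
      g k (D.pt i v x) = c ^ m * g k (D.pt i (v * s) x))
    {q : (D.atl G).ι} {e : D.cov G} (he : e ∈ ((D.atl G).e q).source) (heW : D.pr e ∈ W₀)
    (hβ0 : β q e ≠ 0) (h0 : g 0 e ≠ 0) :
    ¬ LinearIndependent ℂ fun k : Fin p => df (D.atl G) q (fun y => g k.succ y / g 0 y) e := by
  classical
  intro hli
  have hne : ∃ q e, β q e ≠ 0 := ⟨q, e, hβ0⟩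
  -- the sections on the cover
  let Fc := lfOf (tOm_of_Om hβ) (nf_Om D hβ hne)
  let Wc : (D.atl G).ι → Set (D.cov G) := fun q =>
    {y | y ∈ ((D.atl G).e q).source ∧ β q y ≠ 0} ∩ D.pr ⁻¹' W₀
  have hWc : Fc.Dom Wc := Fc.dom_ne.inter (fun _ => hWo.preimage D.continuous_pr) fun _ y _ =>
    (hWd.preimage D.isLocalHomeomorph.isOpenMap) y
  have hsc : ∀ k, Fc.Sec Wc m fun _ => g k := by
    intro k
    refine ⟨fun q e he S => ?_, fun q q' y hy c hc => ?_⟩
    · obtain ⟨f, h1, h2⟩ := hext k q e he S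
      exact ⟨f, h1, h2.mono fun y h3 hy => h3 hy.2 hy.1.2⟩
    · have h1 : β q y = c • β q y := (hβ.2.2.2 q q' y ⟨hy.1.1.1, hy.2.1.1⟩).trans hc
      have h2 : (1 : ℂ) = c := smul_left_injective ℂ hy.1.1.2 ((one_smul ℂ _).trans h1)
      rw [← h2, one_pow, one_mul]
  -- representatives of the cosets, one of them the sheet of `e`
  obtain ⟨i₀, v₀⟩ := q
  obtain ⟨x₀, hx₀, rfl⟩ : ∃ x ∈ (A.e i₀).source, e = D.pt i₀ v₀ x :=
    ⟨D.pr e, he.1, (D.pt_of_mem he).symm⟩
  let r : G ⧸ H → G := fun u => if u = (v₀ : G ⧸ H) then v₀ else u.out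
  have hr : ∀ u, ((r u : G) : G ⧸ H) = u := by
    intro u
    by_cases hu : u = (v₀ : G ⧸ H)
    · simp only [r, if_pos hu]; exact hu.symm
    · simp only [r, if_neg hu]; exact QuotientGroup.out_eq' u
  have hr0 : r (v₀ : G ⧸ H) = v₀ := if_pos rfl
  let F := lfCov D hβ hne hpar v₀
  let W : A.ι → Set X := fun i => {x | x ∈ (A.e i).source ∧ ∀ u, sh D β i (r u) x ≠ 0} ∩ W₀
  have hWo' : ∀ i, IsOpen {x | x ∈ (A.e i).source ∧ ∀ u, sh D β i (r u) x ≠ 0} := by
    intro i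
    rw [isOpen_iff_mem_nhds]
    rintro x ⟨h1, h2⟩
    choose T hT using fun u => Function.ne_iff.1 (h2 u)
    filter_upwards [(A.e i).open_source.mem_nhds h1,
      eventually_all.2 fun u => (hm_sh D hβ h1 (T u)).ev_ne (hT u)] with y h3 h4
    exact ⟨h3, fun u h5 => h4 u (by rw [h5]; rfl)⟩
  have hWd' : ∀ i, (A.e i).source ⊆
      closure {x | x ∈ (A.e i).source ∧ ∀ u, sh D β i (r u) x ≠ 0} := by
    intro i x hx
    choose T hT using fun u => exists_not_flat (nf_sh D (v := r u) hβ hne hx)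
    have := Fintype.ofFinite (G ⧸ H)
    have h1 := frequently_ne (not_flat_prod (A := A) Finset.univ
      (fun u _ => hm_sh D hβ hx (T u)) fun u _ => hT u)
    rw [mem_closure_iff_frequently]
    refine (h1.and_eventually ((A.e i).open_source.mem_nhds hx)).mono fun y hy =>
      ⟨hy.2, fun u h2 => Finset.prod_ne_zero_iff.1 hy.1 u (Finset.mem_univ u) ?_⟩
    rw [h2]; rfl
  have hW : F.Dom W :=
    { op := fun i => (hWo' i).inter hWo
      sub := fun i x hx => hx.1.1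
      dense := fun i x hx => mem_closure_inter (A.e i).open_source (hWo' i) (hWd' i)
        (fun y _ => hWd y) ⟨hx, hx⟩
      ne := fun i x hx => by
        have h1 := hx.1.2 (v₀ : G ⧸ H)
        rw [hr0] at h1
        exact h1 }
  let ρ : G ⧸ H → A.ι → X → ℂ := fun u i x => ra (sh D β i (r u) x) (sh D β i v₀ x)
  have hρ : ∀ u i, ∀ x ∈ W i, sh D β i (r u) x = ρ u i x • sh D β i v₀ x := fun u i x hx =>
    ra_spec (hpar i _ _ x hx.1.1) (hW.ne i x hx)
  have hρ0 : ∀ u i, ∀ x ∈ W i, ρ u i x ≠ 0 := fun u i x hx =>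
    left_ne_zero_of_smul (hρ u i x hx ▸ hx.1.2 u)
  let γ : Fin (p + 1) → G ⧸ H → A.ι → X → ℂ := fun k u i x => g k (D.pt i (r u) x) * ρ u i x ^ m
  have hγ0 : ∀ k, ∀ x ∈ W i₀, γ k (v₀ : G ⧸ H) i₀ x = g k (D.pt i₀ v₀ x) := by
    intro k x hx
    have h1 := hρ (v₀ : G ⧸ H) i₀ x hx
    rw [hr0] at h1
    have h2 : (1 : ℂ) = ρ (v₀ : G ⧸ H) i₀ x :=
      smul_left_injective ℂ (hW.ne i₀ x hx) ((one_smul ℂ _).trans h1)
    simp only [γ, hr0, ← h2, one_pow, mul_one]
  -- a point of `W i₀`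
  have hg : ∀ k, Hm A (fun y => g k (D.pt i₀ v₀ y)) x₀ := fun k =>
    (hm_pt D hx₀).1 ((hsc k).ext.hm hWc (a := (i₀, v₀)) ⟨⟨he, hβ0⟩, heW⟩)
  have hli' := li_ev (fun k : Fin p => cont_df (hm_div (hg k.succ) (hg 0) h0) hx₀) hli
  obtain ⟨x, hx, h1, h2⟩ := ((mem_closure_iff_frequently.1 (hW.dense i₀ hx₀)).and_eventually
    (hli'.and ((hg 0).ev_ne h0))).exists
  refine h.multi (m := m) hp F hW γ (fun k u => ?_) (fun (i : A.ι) (j : A.ι) y hy => ?_) hx
    (fun u hcon => ?_) (v₀ : G ⧸ H) (by rw [hγ0 0 x hx]; exact h2) ?_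
  · intro (i : A.ι) y hy S
    obtain ⟨f, h3, h4⟩ := hext k (i, r u) _ (D.pt_mem_sheet (r u) hy) S
    refine ⟨_, (hm_pt D hy).1 h3, ?_⟩
    filter_upwards [(ev_pt D hy).1 h4] with w h5 hw
    rw [h5 hw.2 (hw.1.2 u)]
    have h6 : β (i, r u) (D.pt i (r u) w) S = ρ u i w * sh D β i v₀ w S := congrFun (hρ u i w hw) S
    rw [h6, mul_pow, ← mul_assoc]
    rfl
  · have hi := hy.1.1.1
    have hj := hy.2.1.1
    refine ⟨MulAction.toPerm (D.c i j y), fun k u c hc => ?_⟩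
    set u' : G ⧸ H := D.c i j y • u with hu'
    have hs : (r u')⁻¹ * (D.c i j y * r u) ∈ H := by
      rw [← QuotientGroup.eq, hr, hu']
      conv_lhs => rw [← hr u]
      rfl
    set s := (r u')⁻¹ * (D.c i j y * r u) with hsd
    have hs1 : r u' * s = D.c i j y * r u := by rw [hsd, mul_inv_cancel_left]
    have e1 : sh D β i (r u) y = tp A i j y (sh D β j (r u' * s) y) := by
      rw [hs1]; exact sh_tr D hβ hi hj
    have e2 : sh D β j (r u' * s) y ≠ 0 := fun h3 => hy.1.1.2 u (by rw [e1, h3, tp_eq, tq_zero])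
    obtain ⟨l, hl⟩ := (hpar j (r u' * s) (r u') y hj).exists_smul (hy.2.1.2 u')
    have e3 := hinv k s hs j (r u') y hj hy.2.2 l (hy.2.1.2 u') e2 hl
    have e4 : D.pt i (r u) y = D.pt j (r u' * s) y := by rw [hs1]; exact D.pt_eq _ hi hj
    have hc' : tp A i j y (sh D β j v₀ y) = c • sh D β i v₀ y := hc
    have hl' : sh D β j (r u' * s) y = l • sh D β j (r u') y := hl
    have e5 : ρ u i y = l * ρ u' j y * c := by
      refine smul_left_injective ℂ (hW.ne i y hy.1) ?_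
      change ρ u i y • sh D β i v₀ y = (l * ρ u' j y * c) • sh D β i v₀ y
      rw [← hρ u i y hy.1, e1, hl', hρ u' j y hy.2, smul_smul, tp_smul, hc', smul_smul]
    change g k (D.pt i (r u) y) * ρ u i y ^ m = c ^ m * (g k (D.pt j (r u') y) * ρ u' j y ^ m)
    rw [e3, e4, e5]
    ring
  · refine (hsc 0).not_flat hWc ⟨(i₀, v₀), _, ⟨⟨he, hβ0⟩, heW⟩, h0⟩ (a := (i₀, r u))
      (D.pt_mem_sheet (r u) hx.1.1) ((ev_pt D hx.1.1).2 ?_)
    filter_upwards [hcon, (hW.op i₀).mem_nhds hx] with y h3 h4 _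
    exact (mul_eq_zero.1 h3).resolve_right (pow_ne_zero m (hρ0 u i₀ y h4))
  · have h3 : (fun k : Fin p => df A i₀
        (fun y => γ k.succ (v₀ : G ⧸ H) i₀ y / γ 0 (v₀ : G ⧸ H) i₀ y) x) = fun k : Fin p =>
          df A i₀ (fun y => g k.succ (D.pt i₀ v₀ y) / g 0 (D.pt i₀ v₀ y)) x := by
      funext k
      refine df_congr hx.1.1 ?_
      filter_upwards [(hW.op i₀).mem_nhds hx] with y hy
      rw [hγ0 _ y hy, hγ0 0 y hy]
    exact h3 ▸ h1


end Main

end Crest.Agent.X261.Bog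
end
end

-- ▼ part X261/Jet/TbE
section

/-!
# Row 261, JET/Tube (helper63), file `TbE`: the frame `dπ = u e`, fibre-null polyvector fields

* `eps_of_gen`, `exists_eps` : the structure `Eps` on a tube;
* `flat_of_pos`   : holomorphic functions vanishing on a set of positive measure are flat somewhere;
* `ident_ch`      : identity theorem for families given in the charts;
* `Eps.isV`       : the Berezin dual of `e` is a polyvector field;
* `par1`, `par`   : a holomorphic polyvector field killed by the `dπ_k` on a set of positive measure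
                    is a holomorphic multiple of the dual of `e` in degree `n - p`.
-/

set_option autoImplicit false
set_option linter.unusedSectionVars false

open Set Filter Topology Complex Matrix MeasureTheory Metric
open scoped ContDiff Matrix ComplexConjugate ENNReal

namespace Crest.Agent.X261.Jet.Tb

open Crest.Agent.R275 Crest.Agent.R275.Geo Crest.Agent.R275.Core144
open Crest.Agent.R273.Defs_333 Crest.Agent.R273.Fock_243 Crest.Agent.R273.Vm_333
open Crest.Agent.R273.UCov_914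
open Crest.Agent.R273.BKNa_37 (IsV J_J)
open Crest.Agent.R273.Berezin_505 (Sb Sbi)
open Crest.Agent.R281.Kd_22 (Hm Cop hm_of_holAt holAt_of_hm ev_not_flat ev_iff cancel)
open Crest.Agent.X261.Top (dW Fol upF)
open Crest.Agent.X261.Bog (Par rt rt_ev div_cop cop_of_comb exists_not_flat cop_not_flat)

noncomputable section

variable {n p : ℕ} {M : Type} [TopologicalSpace M] {A : Atl n M} {T : Set M} {π : M → Cn p}
  {L N : LB A} {e : A.ι → M → FI n → ℂ} {u : A.ι → M → ℂ}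

/-! ### the frame -/

theorem eps_of_gen (H : Sbm A T π) (hol : ∀ i S, HolAt A i univ fun x => e i x S)
    (deg : ∀ i x, Dg p (e i x))
    (tr : ∀ i j, ∀ x ∈ (A.e i).source ∩ (A.e j).source,
      e i x = (L.g i j x)⁻¹ • (Gam (Jm A i j x)ᵀ *ᵥ e j x))
    (cop : ∀ i, ∀ x ∈ (A.e i).source, Cop A (fun S y => e i y S) x)
    (gen : ∀ i, ∀ y ∈ T, y ∈ (A.e i).source → ∃ c : ℂ, c ≠ 0 ∧ e i y = c • dW A i π y) :
    ∃ u, Eps L T π e u := by
  choose! c hc0 hc using gen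
  have he : ∀ i, ∀ y ∈ T, y ∈ (A.e i).source → dW A i π y = (c i y)⁻¹ • e i y :=
    fun i y hy hi => by rw [hc i y hy hi, smul_smul, inv_mul_cancel₀ (hc0 i y hy hi), one_smul]
  refine ⟨fun i y => (c i y)⁻¹, hol, deg, tr, cop, ⟨fun i => ?_,
    fun i y hy hi => inv_ne_zero (hc0 i y hy hi), fun i j y hy hij => ?_⟩, he⟩
  · refine holAt_of_hm fun x hi hx => ?_
    obtain ⟨S, hS⟩ := Function.ne_iff.1 (H.dW_ne hx hi)
    have h1 := hm_of_holAt (H.dW_hol i S) H.opn hi hx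
    have h2 := hm_of_holAt (hol i S) isOpen_univ hi (mem_univ x)
    have h3 : e i x S ≠ 0 := by
      rw [hc i x hx hi]
      exact mul_ne_zero (hc0 i x hx hi) hS
    refine (h1.mul (h2.inv h3)).congr ?_
    filter_upwards [H.opn.mem_nhds hx, (A.e i).open_source.mem_nhds hi, h2.ev_ne h3]
      with y a b d
    rw [he i y a b, Pi.smul_apply, smul_eq_mul, mul_inv_cancel_right₀ d]
  · have h1 := H.dW_tr hy hij
    have h2 : Gam (Jm A i j y)ᵀ *ᵥ e j y ≠ 0 := fun h => H.dW_ne hy hij.1 (by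
      rw [he i y hy hij.1, tr i j y hij, h, smul_zero, smul_zero])
    rw [he i y hy hij.1, he j y hy hij.2, Matrix.mulVec_smul, tr i j y hij, smul_smul] at h1
    have h3 : (c i y)⁻¹ * (L.g i j y)⁻¹ = (c j y)⁻¹ := smul_left_injective ℂ h2 h1
    rw [← h3, mul_left_comm, mul_inv_cancel₀ (L.ne_zero i j y), mul_one]

section Cover

variable {X : Type} [TopologicalSpace X] {B : Atl n X} {G : Type} [Group G] {D : MonD B G}

/-- coprimality on the cover -/
theorem cop_cov {κ : Type*} {t : κ → X → ℂ} {y : D.cov G} (h : Cop B t (D.pr y)) :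
    Cop (D.atl G) (fun j z => t j (D.pr z)) y := by
  obtain ⟨q, hq⟩ := (D.atl G).cover y
  obtain ⟨x, hx, rfl⟩ : ∃ x ∈ (B.e q.1).source, D.pt q.1 q.2 x = y :=
    ⟨D.pr y, hq.1, D.pt_of_mem hq⟩
  intro k hk hkt
  refine h (fun x => k (D.pt q.1 q.2 x)) ((Bog.hm_pt D hx).1 hk) fun j => ?_
  obtain ⟨m, hm, h1⟩ := hkt j
  exact ⟨fun x => m (D.pt q.1 q.2 x), (Bog.hm_pt D hx).1 hm, (Bog.ev_pt D hx).1 h1⟩

theorem exists_eps (F : Fol D p) {x : D.cov G} (hx : x ∈ F.T.M0) :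
    ∃ u, Eps (D.pullLB G F.L) (F.T.T x) (F.T.π x) (upF D F.e) u := by
  refine eps_of_gen (tub_of_tube F.T hx).toSbm (fun q S => F.tom.hol q.1 S)
    (fun q y => F.tom.deg q.1 _) (fun i j y hy => ?_)
    (fun q y hy => cop_cov (F.cop q.1 _ hy.1)) (F.gen x hx)
  rw [D.pullLB_g _ hy]
  exact F.tom.tr i.1 j.1 _ ⟨hy.1.1, hy.2.1⟩

end Cover

/-! ### the dual polyvector field -/

theorem hm_mulVec {x : M} (B : Matrix (FI n) (FI n) ℂ) {v : M → FI n → ℂ}
    (hv : ∀ S, Hm A (fun y => v y S) x) (S : FI n) : Hm A (fun y => (B *ᵥ v y) S) x :=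
  Bog.hm_sum Finset.univ (f := fun S' y => B S S' * v y S') fun S' _ => (Hm.const _ x).mul (hv S')

theorem hm_prj {x : M} (r : ℕ) {v : M → FI n → ℂ} (hv : ∀ S, Hm A (fun y => v y S) x)
    (S : FI n) : Hm A (fun y => prj r (v y) S) x := by
  unfold prj
  split_ifs
  · exact hv S
  · exact Hm.const 0 x

namespace Eps

variable (E0 : Eps L T π e u) {i j : A.ι} {x : M}
include E0

theorem hm (hi : x ∈ (A.e i).source) (S : FI n) : Hm A (fun y => e i y S) x :=
  hm_of_holAt (E0.hol i S) isOpen_univ hi (mem_univ x)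

theorem hm_Sbi (hi : x ∈ (A.e i).source) (S : FI n) : Hm A (fun y => (Sbi ℂ n *ᵥ e i y) S) x :=
  hm_mulVec _ (E0.hm hi) S


theorem cop_Sbi (hi : x ∈ (A.e i).source) : Cop A (fun S y => (Sbi ℂ n *ᵥ e i y) S) x :=
  cop_of_comb (E0.cop i x hi) (fun S S' _ => Sb ℂ n S S') (fun _ _ => Hm.const _ x) fun S =>
    Eventually.of_forall fun y => (congrFun (Sb_Sbi (e i y)) S).symm

theorem nf_Sbi (hi : x ∈ (A.e i).source) : ¬ ∀ᶠ y in 𝓝 x, Sbi ℂ n *ᵥ e i y = 0 := fun h =>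
  cop_not_flat (E0.cop_Sbi hi) fun S => h.mono fun _ hy => congrFun hy S


theorem tr_Sbi (hij : x ∈ (A.e i).source ∩ (A.e j).source) :
    Sbi ℂ n *ᵥ e i x =
      ((KB A).g i j x * (L.g i j x)⁻¹) • (Gam (Jm A j i x) *ᵥ (Sbi ℂ n *ᵥ e j x)) := by
  rw [E0.tr i j x hij, Matrix.mulVec_smul, Gam_Sbi (J_J hij), KB_g hij, smul_smul, mul_comm]


end Eps

/-! ### identity theorems -/

theorem ident_ch [PreconnectedSpace M] {κ : Type*} [Finite κ] {f : A.ι → M → κ → ℂ}
    (hf : ∀ i, ∀ x ∈ (A.e i).source, ∀ S, Hm A (fun y => f i y S) x)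
    (tr : ∀ i j, ∀ x ∈ (A.e i).source ∩ (A.e j).source, f j x = 0 → f i x = 0)
    {i₀ : A.ι} {x₀ : M} (h₀ : x₀ ∈ (A.e i₀).source) (h : ∀ᶠ y in 𝓝 x₀, f i₀ y = 0) (i : A.ι) :
    ∀ x ∈ (A.e i).source, f i x = 0 := by
  let Z : Set M := {x | ∃ i, x ∈ (A.e i).source ∧ ∀ᶠ y in 𝓝 x, f i y = 0}
  have hZ : ∀ {i : A.ι} {x : M}, x ∈ (A.e i).source → x ∈ Z → ∀ᶠ y in 𝓝 x, f i y = 0 := by
    rintro i x hx ⟨j, hj, h⟩
    filter_upwards [h, (A.e i).open_source.mem_nhds hx, (A.e j).open_source.mem_nhds hj]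
      with y h1 h2 h3 using tr i j y ⟨h2, h3⟩ h1
  have hZo : IsOpen Z := by
    rw [isOpen_iff_mem_nhds]
    rintro x ⟨j, hj, h⟩
    filter_upwards [eventually_eventually_nhds.2 h, (A.e j).open_source.mem_nhds hj] with y h1 h2
    exact ⟨j, h2, h1⟩
  have hZc : IsClosed Z := by
    rw [← isOpen_compl_iff, isOpen_iff_mem_nhds]
    intro x hx
    obtain ⟨j, hj⟩ := A.cover x
    obtain ⟨S, hS⟩ := exists_not_flat (τ := f j) fun h => hx ⟨j, hj, h⟩
    filter_upwards [ev_not_flat (hf j x hj S) hS, (A.e j).open_source.mem_nhds hj] with y h1 h2 hy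
    exact h1 ((hZ h2 hy).mono fun w hw => by rw [hw]; rfl)
  have h1 : Z = univ := IsClopen.eq_univ ⟨hZc, hZo⟩ ⟨x₀, i₀, h₀, h⟩
  exact fun x hx => (hZ hx (h1 ▸ mem_univ x)).self_of_nhds

/-- a field parallel to the dual of `e` is a holomorphic multiple of it -/
theorem mul_of_par (E0 : Eps L T π e u) {L1 : LB A}
    (hL : ∀ i j, ∀ x ∈ (A.e i).source ∩ (A.e j).source,
      L1.g i j x = ((KB A)⁻¹ * N).g i j x * L.g i j x)
    {V : A.ι → M → FI n → ℂ} (tr : ∀ i j, ∀ x ∈ (A.e i).source ∩ (A.e j).source,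
      V i x = N.g i j x • (Gam (Jm A j i x) *ᵥ V j x))
    (hm : ∀ i, ∀ x ∈ (A.e i).source, ∀ S, Hm A (fun y => V i y S) x)
    (hp : ∀ i, ∀ x ∈ (A.e i).source, Par (V i x) (Sbi ℂ n *ᵥ e i x)) :
    ∃ s, IsHS L1 univ s ∧ ∀ i, ∀ x ∈ (A.e i).source, V i x = s i x • (Sbi ℂ n *ᵥ e i x) := by
  classical
  let s : A.ι → M → ℂ := fun i x =>
    if x ∈ (A.e i).source then rt A (V i) (fun y => Sbi ℂ n *ᵥ e i y) x else 0
  have key : ∀ i, ∀ x ∈ (A.e i).source, ∀ c : M → ℂ, Hm A c x →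
      (∀ᶠ y in 𝓝 x, V i y = c y • (Sbi ℂ n *ᵥ e i y)) → c =ᶠ[𝓝 x] s i := by
    intro i x hi c h1 h2
    filter_upwards [rt_ev (E0.hm_Sbi hi) (E0.nf_Sbi hi) h1 h2, (A.e i).open_source.mem_nhds hi]
      with y h3 h4
    rw [← h3]
    exact (if_pos h4).symm
  have h1 : ∀ i, ∀ x ∈ (A.e i).source, Hm A (s i) x ∧ V i x = s i x • (Sbi ℂ n *ᵥ e i x) := by
    intro i x hi
    obtain ⟨c, h1, h2⟩ := div_cop (E0.hm_Sbi hi) (hm i x hi) (E0.cop_Sbi hi)
      (((A.e i).open_source.eventually_mem hi).mono (hp i))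
    have h3 := key i x hi c h1 h2
    exact ⟨h1.congr h3, h3.self_of_nhds ▸ h2.self_of_nhds⟩
  refine ⟨s, ⟨fun i => holAt_of_hm fun x hi _ => (h1 i x hi).1, fun i x hx => if_neg hx,
    fun i j x hij _ => ?_⟩, fun i x hi => (h1 i x hi).2⟩
  refine (key i x hij.1 (fun y => L1.g i j y * s j y)
    ((hm_of_holAt (L1.hol i j) (A.e j).open_source hij.1 hij.2).mul (h1 j x hij.2).1)
    ?_).self_of_nhds.symm
  filter_upwards [((A.e i).open_source.inter (A.e j).open_source).mem_nhds hij] with y hy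
  rw [tr i j y hy, (h1 j y hy.2).2, E0.tr_Sbi hy, hL i j y hy, Matrix.mulVec_smul, smul_smul,
    smul_smul, LB.mul_g, LB.inv_g]
  congr 1
  have h2 := (KB A).ne_zero i j y
  have h3 := L.ne_zero i j y
  field_simp

variable [Countable A.ι]

include A in
theorem sec_cnt : SecondCountableTopology M := by
  have : ∀ i, SecondCountableTopology (A.e i).source := fun i =>
    (A.e i).secondCountableTopology_source
  exact TopologicalSpace.secondCountableTopology_of_countable_cover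
    (fun i => (A.e i).open_source) (eq_univ_of_forall fun x => mem_iUnion.2 (A.cover x))

variable [T2Space M] [MeasurableSpace M] [BorelSpace M]

/-- the zero set of a non flat holomorphic function is locally null -/
theorem null_nhds (vol : HM (KB A)⁻¹) {f : M → ℂ} {x : M} (hf : Hm A f x)
    (h0 : ¬ ∀ᶠ y in 𝓝 x, f y = 0) : ∃ O ∈ 𝓝 x, vm vol (O ∩ {y | f y = 0}) = 0 := by
  borelize (Cn n)
  let μ : Measure (Cn n) := Measure.addHaar
  obtain ⟨i, hi⟩ := A.cover x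
  obtain ⟨r, hr, h1⟩ := R271.Local821.eventually_null_zero μ (hf i hi)
    (not_eventually.1 fun h => h0 ((ev_iff hi).2 h))
  obtain ⟨W, hW, C, -, h2⟩ := leG_chart vol μ hi _ (ball_mem_nhds _ hr)
  obtain ⟨O, h3, hO, hx⟩ := _root_.mem_nhds_iff.1
    (inter_mem (inter_mem hW ((A.e i).open_source.mem_nhds hi)) (Bog.hm_ev_cont hf))
  refine ⟨O, hO.mem_nhds hx, ?_⟩
  have h4 : MeasurableSet (O ∩ {y | f y = 0}) := by
    have h5 : ContinuousOn f O := fun y hy => (h3 hy).2.continuousWithinAt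
    have h6 := hO.measurableSet.diff
      (h5.isOpen_inter_preimage hO (isOpen_compl_singleton (x := (0 : ℂ)))).measurableSet
    convert h6 using 1
    ext y
    simp only [mem_inter_iff, Set.mem_sdiff, mem_preimage, mem_compl_iff, mem_singleton_iff]
    exact ⟨fun h => ⟨h.1, fun h' => h'.2 h.2⟩, fun h => ⟨h.1, by_contra fun h' => h.2 ⟨h.1, h'⟩⟩⟩
  have h5 := h2 (indicator {z | f ((A.e i).symm z) = 0} 1)
  rw [lintegral_congr_ae (g := fun _ => 0) (h1.mono fun z hz =>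
    indicator_of_notMem (s := {z | f ((A.e i).symm z) = 0}) hz 1), lintegral_zero, mul_zero] at h5
  refine nonpos_iff_eq_zero.1 (le_trans ?_ h5)
  rw [← setLIntegral_one]
  refine le_trans (le_of_eq (setLIntegral_congr_fun h4 fun y hy => ?_))
    (lintegral_mono_set fun y hy => (h3 hy.1).1.1)
  refine (indicator_of_mem (s := {z | f ((A.e i).symm z) = 0}) ?_ (1 : Cn n → ℝ≥0∞)).symm
  show f ((A.e i).symm (A.e i y)) = 0
  rw [(A.e i).left_inv (h3 hy.1).1.2]
  exact hy.2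

/-- holomorphic functions vanishing on a set of positive measure are flat at one of its points -/
theorem flat_of_pos (vol : HM (KB A)⁻¹) {κ : Type*} [Finite κ] {f : M → κ → ℂ} {E : Set M}
    (hE : vm vol E ≠ 0) (hf : ∀ x ∈ E, ∀ j, Hm A (fun y => f y j) x)
    (h0 : ∀ᵐ x ∂(vm vol), x ∈ E → f x = 0) : ∃ x ∈ E, ∀ᶠ y in 𝓝 x, f y = 0 := by
  have := sec_cnt (A := A)
  by_contra hcon
  refine hE (measure_null_of_locally_null E fun x hx => ?_)
  obtain ⟨j, hj⟩ := exists_not_flat (τ := f) fun h => hcon ⟨x, hx, h⟩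
  obtain ⟨O, h1, h2⟩ := null_nhds vol (hf x hx j) hj
  refine ⟨E ∩ O, inter_mem_nhdsWithin E h1, measure_mono_null (fun y hy => ?_)
    (measure_union_null h2 (ae_iff.1 h0))⟩
  by_cases h : f y = 0
  · exact Or.inl ⟨hy.2, congrFun h j⟩
  · exact Or.inr fun h' => h (h' hy.1)

/-- **fibre-null holomorphic polyvector fields**, one chart form -/
theorem par1 [PreconnectedSpace M] (H : Sbm A T π) (E0 : Eps L T π e u) {r : ℕ} (hr : p + r = n)
    {L1 : LB A} (hL : ∀ i j, ∀ x ∈ (A.e i).source ∩ (A.e j).source,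
      L1.g i j x = ((KB A)⁻¹ * N).g i j x * L.g i j x)
    {V : A.ι → M → FI n → ℂ} (hV : IsV N V) (hol : ∀ i S, HolAt A i univ fun x => V i x S)
    (vol : HM (KB A)⁻¹) {E : Set M} (hE : vm vol E ≠ 0) {i : A.ι}
    (hET : E ⊆ T ∩ (A.e i).source)
    (null : ∀ k, ∀ᵐ x ∂(vm vol), x ∈ E → iW (dp A i π x k) *ᵥ V i x = 0) :
    ∃ s, IsHS L1 univ s ∧ ∀ i, ∀ x ∈ (A.e i).source,
      prj r (V i x) = s i x • (Sbi ℂ n *ᵥ e i x) := by
  have hm : ∀ i, ∀ x ∈ (A.e i).source, ∀ S, Hm A (fun y => prj r (V i y) S) x :=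
    fun i x hi => hm_prj r fun S => hm_of_holAt (hol i S) isOpen_univ hi (mem_univ x)
  have tr : ∀ i j, ∀ x ∈ (A.e i).source ∩ (A.e j).source,
      prj r (V i x) = N.g i j x • (Gam (Jm A j i x) *ᵥ prj r (V j x)) := fun i j x hij => by
    rw [hV.tr i j x hij, prj_smul, Gam_prj]
  refine mul_of_par E0 hL tr hm ?_
  let f : A.ι → M → FI n × FI n → ℂ := fun i y S =>
    prj r (V i y) S.1 * (Sbi ℂ n *ᵥ e i y) S.2 - prj r (V i y) S.2 * (Sbi ℂ n *ᵥ e i y) S.1
  have hf : ∀ i y, f i y = 0 ↔ Par (prj r (V i y)) (Sbi ℂ n *ᵥ e i y) := fun i y =>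
    ⟨fun h S S' => sub_eq_zero.1 (congrFun h (S, S')),
      fun h => funext fun S => sub_eq_zero.2 (h S.1 S.2)⟩
  have hfm : ∀ i, ∀ x ∈ (A.e i).source, ∀ S, Hm A (fun y => f i y S) x := fun i x hi S =>
    ((hm i x hi _).mul (E0.hm_Sbi hi _)).sub ((hm i x hi _).mul (E0.hm_Sbi hi _))
  obtain ⟨x₀, h1, h2⟩ := flat_of_pos vol (f := f i) hE (fun x hx => hfm i x (hET hx).2) (by
    filter_upwards [eventually_all.2 null] with x hx hxE
    obtain ⟨w, hw⟩ := H.dual (hET hxE).1 (hET hxE).2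
    obtain ⟨c, hc⟩ := eq_smul_Sbi hr hw (dg_prj r (V i x)) fun k => iW_prj (hx k hxE) r
    rw [hf, hc, ← dW_dp, E0.eq i x (hET hxE).1 (hET hxE).2, Matrix.mulVec_smul, smul_smul]
    exact Bog.par_smul _ _)
  refine fun j x hj => (hf j x).1 (ident_ch hfm (fun i j x hij h => ?_) (hET h1).2 h2 j x hj)
  rw [hf] at h ⊢
  rw [tr i j x hij, E0.tr_Sbi hij]
  intro S S'
  have h3 := h.mulVec (Gam (Jm A j i x)) S S'
  simp only [Pi.smul_apply, smul_eq_mul]
  linear_combination (N.g i j x * ((KB A).g i j x * (L.g i j x)⁻¹)) * h3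

/-- **fibre-null holomorphic polyvector fields** -/
theorem par [PreconnectedSpace M] (H : Sbm A T π) (E0 : Eps L T π e u) {r : ℕ} (hr : p + r = n)
    {L1 : LB A} (hL : ∀ i j, ∀ x ∈ (A.e i).source ∩ (A.e j).source,
      L1.g i j x = ((KB A)⁻¹ * N).g i j x * L.g i j x)
    {V : A.ι → M → FI n → ℂ} (hV : IsV N V) (hol : ∀ i S, HolAt A i univ fun x => V i x S)
    (vol : HM (KB A)⁻¹) {E : Set M} (hE : vm vol E ≠ 0) (hET : E ⊆ T)
    (null : ∀ i k, ∀ᵐ x ∂(vm vol), x ∈ E → x ∈ (A.e i).source →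
      iW (dp A i π x k) *ᵥ V i x = 0) :
    ∃ s, IsHS L1 univ s ∧ ∀ i, ∀ x ∈ (A.e i).source,
      prj r (V i x) = s i x • (Sbi ℂ n *ᵥ e i x) := by
  obtain ⟨i, hi⟩ : ∃ i, vm vol (E ∩ (A.e i).source) ≠ 0 := by
    by_contra hcon
    push Not at hcon
    refine hE (measure_mono_null (fun x hx => ?_) (measure_iUnion_null hcon))
    obtain ⟨i, hi⟩ := A.cover x
    exact mem_iUnion.2 ⟨i, hx, hi⟩
  exact par1 H E0 hr hL hV hol vol hi (fun x hx => ⟨hET hx.1, hx.2⟩) fun k =>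
    (null i k).mono fun x hx h => hx h.1 h.2

end

end Crest.Agent.X261.Jet.Tb
end

-- ▼ part X261/Jet/Fin
section

/-!
# Row 261, package JET (helper6), file `Fin`: `Top.JetStmt` and `Sk.JetK`, unconditionally
-/

set_option autoImplicit false

namespace Crest.Agent.X261.Jet.Mn

theorem epsStmt : EpsStmt := by
  intro n p X _ B G _ D F x hx
  exact Tb.exists_eps F hx

theorem parStmt : ParStmt := by
  intro n p M _ A T π L N e u _ _ _ _ _ H E0 r hr L1 hL V hV hol vol E hE i hET null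
  exact Tb.par1 H E0 hr hL hV hol vol hE hET null


theorem jetK : Sk.JetK := jetK_of epsStmt parStmt

end Crest.Agent.X261.Jet.Mn
end

-- ▼ part X261/Sk/Done

/-! Row 261: all leaves plugged into the skeleton (helper97). -/

set_option autoImplicit false

namespace Crest.Agent.X261.Sk

theorem mainStmt : E0.MainStmt :=
  all_of En.Inst.datStmt Fam13.famStmt Ni.niStmt Rel.rel Jet.Mn.jetK

end Crest.Agent.X261.Sk
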